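import Vale.Agent.Lib.P248.Gen2.Final

open MeasureTheory Set Filter

namespace Vale.Agent.Lib.P248.Gen

/-- `(m + 1)^m ≤ e * m^m` for `m ≥ 1`. -/
private theorem gen2_allcodim_succ_pow (m : ℕ) (hm : 1 ≤ m) :
    ((m:ℝ) + 1) ^ m ≤ Real.exp 1 * (m:ℝ) ^ m := by
  have hm0 : (0:ℝ) < m := by exact_mod_cast hm
  have h1 : (m:ℝ) + 1 = (m:ℝ) * (1 / (m:ℝ) + 1) := by
    field_simp
    ring
  have h2 : 1 / (m:ℝ) + 1 ≤ Real.exp (1 / (m:ℝ)) := Real.add_one_le_exp _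
  have h3 : (0:ℝ) ≤ 1 / (m:ℝ) + 1 := by positivity
  have h4 : (1 / (m:ℝ) + 1) ^ m ≤ Real.exp (1 / (m:ℝ)) ^ m := pow_le_pow_left₀ h3 h2 m
  have h5 : Real.exp (1 / (m:ℝ)) ^ m = Real.exp 1 := by
    rw [← Real.exp_nat_mul]
    congr 1
    field_simp
  rw [h1, mul_pow, mul_comm]
  rw [h5] at h4
  exact mul_le_mul_of_nonneg_right h4 (by positivity)

/-- `m^m ≤ e^m * m!`. -/
private theorem gen2_allcodim_pow_le (m : ℕ) :
    (m:ℝ) ^ m ≤ Real.exp 1 ^ m * (m.factorial : ℝ) := by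
  have h := Real.pow_div_factorial_le_exp (x := (m:ℝ)) (Nat.cast_nonneg m) m
  have hf : (0:ℝ) < (m.factorial : ℝ) := by exact_mod_cast Nat.factorial_pos m
  rw [div_le_iff₀ hf] at h
  have e : Real.exp (m:ℝ) = Real.exp 1 ^ m := by
    rw [← Real.exp_nat_mul, mul_one]
  rw [e] at h
  exact h

/-- For every exponent `j`, eventually `m^j (m+1)^(m+1) < (3/2) 4^m m!`. -/
private theorem gen2_allcodim_base (j : ℕ) :
    ∃ m₀ : ℕ, ∀ m : ℕ, m₀ ≤ m →
      (m:ℝ) ^ j * ((m:ℝ) + 1) ^ (m+1) < 3 / 2 * (4:ℝ) ^ m * (m.factorial : ℝ) := by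
  have he : Real.exp 1 < 4 := lt_trans Real.exp_one_lt_d9 (by norm_num)
  have hepos : (0:ℝ) < Real.exp 1 := Real.exp_pos 1
  have hr : (1:ℝ) < 4 / Real.exp 1 := by
    rw [lt_div_iff₀ hepos]
    linarith
  have ht := tendsto_pow_const_div_const_pow_of_one_lt (j + 1) hr
  have hc : (0:ℝ) < 3 / (4 * Real.exp 1) := by positivity
  have hev := (tendsto_order.1 ht).2 _ hc
  obtain ⟨m₁, hm₁⟩ := eventually_atTop.1 hev
  refine ⟨max m₁ 1, fun m hm => ?_⟩
  have hm1 : 1 ≤ m := le_trans (le_max_right _ _) hm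
  have hm0 : (0:ℝ) < m := by exact_mod_cast hm1
  have hC := hm₁ m (le_trans (le_max_left _ _) hm)
  have hrpos : (0:ℝ) < (4 / Real.exp 1) ^ m := by positivity
  rw [div_lt_iff₀ hrpos] at hC
  have hrm : (4 / Real.exp 1) ^ m = (4:ℝ) ^ m / Real.exp 1 ^ m := div_pow _ _ _
  rw [hrm] at hC
  have hem : (0:ℝ) < Real.exp 1 ^ m := by positivity
  -- `hC : m^(j+1) < 3 / (4 e) * (4^m / e^m)`
  have hA := gen2_allcodim_succ_pow m hm1
  have hB := gen2_allcodim_pow_le m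
  have hf : (0:ℝ) < (m.factorial : ℝ) := by exact_mod_cast Nat.factorial_pos m
  have hmm : (0:ℝ) < (m:ℝ) ^ m := by positivity
  have hmj : (0:ℝ) ≤ (m:ℝ) ^ j := by positivity
  have h4m : (0:ℝ) < (4:ℝ) ^ m := by positivity
  -- first factor
  have h1 : (m:ℝ) ^ j * ((m:ℝ) + 1) * Real.exp 1 < 3 / 2 * ((4:ℝ) ^ m / Real.exp 1 ^ m) := by
    have hle : (m:ℝ) ^ j * ((m:ℝ) + 1) ≤ 2 * (m:ℝ) ^ (j + 1) := by
      have h1m : (1:ℝ) ≤ m := by exact_mod_cast hm1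
      have : (m:ℝ) + 1 ≤ 2 * m := by linarith
      calc (m:ℝ) ^ j * ((m:ℝ) + 1) ≤ (m:ℝ) ^ j * (2 * m) := mul_le_mul_of_nonneg_left this hmj
        _ = 2 * (m:ℝ) ^ (j + 1) := by ring
    calc (m:ℝ) ^ j * ((m:ℝ) + 1) * Real.exp 1
        ≤ 2 * (m:ℝ) ^ (j + 1) * Real.exp 1 := mul_le_mul_of_nonneg_right hle hepos.le
      _ < 2 * (3 / (4 * Real.exp 1) * ((4:ℝ) ^ m / Real.exp 1 ^ m)) * Real.exp 1 := by
          apply mul_lt_mul_of_pos_right _ hepos
          linarith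
      _ = 3 / 2 * ((4:ℝ) ^ m / Real.exp 1 ^ m) := by
          field_simp
          ring
  calc (m:ℝ) ^ j * ((m:ℝ) + 1) ^ (m+1)
      = (m:ℝ) ^ j * ((m:ℝ) + 1) * ((m:ℝ) + 1) ^ m := by ring
    _ ≤ (m:ℝ) ^ j * ((m:ℝ) + 1) * (Real.exp 1 * (m:ℝ) ^ m) :=
        mul_le_mul_of_nonneg_left hA (by positivity)
    _ = (m:ℝ) ^ j * ((m:ℝ) + 1) * Real.exp 1 * (m:ℝ) ^ m := by ring
    _ < 3 / 2 * ((4:ℝ) ^ m / Real.exp 1 ^ m) * (m:ℝ) ^ m := mul_lt_mul_of_pos_right h1 hmm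
    _ ≤ 3 / 2 * ((4:ℝ) ^ m / Real.exp 1 ^ m) * (Real.exp 1 ^ m * (m.factorial : ℝ)) :=
        mul_le_mul_of_nonneg_left hB (by positivity)
    _ = 3 / 2 * (4:ℝ) ^ m * (m.factorial : ℝ) := by
        field_simp

/-- For every `k` and every exponent `j`, eventually
`m^j (m+1)^(m+1) < (3/2) 4^m (m-k)!`. -/
private theorem gen2_allcodim_step (k : ℕ) : ∀ j : ℕ,
    ∃ m₀ : ℕ, ∀ m : ℕ, m₀ ≤ m →
      (m:ℝ) ^ j * ((m:ℝ) + 1) ^ (m+1) < 3 / 2 * (4:ℝ) ^ m * ((m - k).factorial : ℝ) := by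
  induction k with
  | zero =>
    intro j
    simpa using gen2_allcodim_base j
  | succ k ih =>
    intro j
    obtain ⟨m₀, h⟩ := ih (j + 1)
    refine ⟨max m₀ (k + 1), fun m hm => ?_⟩
    have hm0 : m₀ ≤ m := le_trans (le_max_left _ _) hm
    have hmk : k + 1 ≤ m := le_trans (le_max_right _ _) hm
    have hI := h m hm0
    have hmpos : (0:ℝ) < m := by
      have : 1 ≤ m := by omega
      exact_mod_cast this
    have hfac : ((m - k).factorial : ℝ) ≤ (m:ℝ) * ((m - (k + 1)).factorial : ℝ) := by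
      have e : m - k = (m - (k + 1)) + 1 := by omega
      rw [e, Nat.factorial_succ]
      push_cast
      have hle : (((m - (k + 1) : ℕ) : ℝ) + 1) ≤ (m:ℝ) := by
        have : m - (k + 1) + 1 ≤ m := by omega
        exact_mod_cast this
      have hnn : (0:ℝ) ≤ ((m - (k + 1)).factorial : ℝ) := by positivity
      exact mul_le_mul_of_nonneg_right hle hnn
    have h4 : (0:ℝ) < 3 / 2 * (4:ℝ) ^ m := by positivity
    have h2 : (m:ℝ) ^ (j + 1) * ((m:ℝ) + 1) ^ (m+1) <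
        3 / 2 * (4:ℝ) ^ m * ((m:ℝ) * ((m - (k + 1)).factorial : ℝ)) :=
      lt_of_lt_of_le hI (mul_le_mul_of_nonneg_left hfac h4.le)
    have h3 : (m:ℝ) * ((m:ℝ) ^ j * ((m:ℝ) + 1) ^ (m+1)) <
        (m:ℝ) * (3 / 2 * (4:ℝ) ^ m * ((m - (k + 1)).factorial : ℝ)) := by
      calc (m:ℝ) * ((m:ℝ) ^ j * ((m:ℝ) + 1) ^ (m+1))
          = (m:ℝ) ^ (j + 1) * ((m:ℝ) + 1) ^ (m+1) := by ring
        _ < 3 / 2 * (4:ℝ) ^ m * ((m:ℝ) * ((m - (k + 1)).factorial : ℝ)) := h2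
        _ = (m:ℝ) * (3 / 2 * (4:ℝ) ^ m * ((m - (k + 1)).factorial : ℝ)) := by ring
    exact lt_of_mul_lt_mul_left h3 hmpos.le

/-- For every number `k` of non-symmetric coordinates, the improved bound exceeds the simplex
value in all sufficiently large dimensions. -/
theorem num_gap_all (k : ℕ) : ∃ m₀ : ℕ, ∀ m : ℕ, m₀ ≤ m →
    ((m:ℝ) + 1) ^ (m+1) < 3 / 2 * (4:ℝ) ^ m * ((m - k).factorial : ℝ) := by
  obtain ⟨m₀, h⟩ := gen2_allcodim_step k 0
  refine ⟨m₀, fun m hm => ?_⟩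
  have := h m hm
  simpa using this

/-- The statement below, written with `vol` and `polarAt`. -/
private theorem gen2_allcodim_vol (k : ℕ) : ∃ m₀ : ℕ, ∀ m : ℕ, m₀ ≤ m →
    ∀ (K : Set (Fin m → ℝ)), IsCompact K → Convex ℝ K → ∀ S : Finset (Fin m),
      (∀ i ∈ S, ∀ x ∈ K, Function.update x i (-(x i)) ∈ K) → m ≤ S.card + k →
      ∀ z ∈ interior K,
        ((m:ℝ) + 1) ^ (m+1) / (m.factorial : ℝ) ^ 2 < vol K * vol (polarAt K z) := by
  obtain ⟨m₁, h₁⟩ := num_gap_all k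
  obtain ⟨m₂, h₂⟩ := gen2_allcodim_step 0 1
  refine ⟨max (max m₁ m₂) (k + 2), fun m hm K hK hc S hflip hS z hz => ?_⟩
  have hm1 : m₁ ≤ m := le_trans (le_trans (le_max_left _ _) (le_max_left _ _)) hm
  have hm2 : m₂ ≤ m := le_trans (le_trans (le_max_right _ _) (le_max_left _ _)) hm
  have hmk : k + 2 ≤ m := le_trans (le_max_right _ _) hm
  obtain ⟨-, -, c1, c2, -, -⟩ := symCoords_final2 K hK hc S hflip z hz
  have hcard : S.card ≤ m := by
    have := Finset.card_le_univ S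
    simpa using this
  rcases Nat.lt_or_ge S.card m with hlt | hge
  · -- at least one free coordinate
    apply c2 (by omega) hlt
    have hfac : ((m - k).factorial : ℝ) ≤ ((S.card).factorial : ℝ) := by
      exact_mod_cast Nat.factorial_le (by omega)
    calc ((m:ℝ) + 1) ^ (m+1) < 3 / 2 * (4:ℝ) ^ m * ((m - k).factorial : ℝ) := h₁ m hm1
      _ ≤ 3 / 2 * (4:ℝ) ^ m * ((S.card).factorial : ℝ) := by
          apply mul_le_mul_of_nonneg_left hfac
          positivity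
  · -- all coordinates symmetric
    apply c1
    have hsm : S.card = m := le_antisymm hcard hge
    rw [hsm]
    have h := h₂ m hm2
    simp only [Nat.sub_zero, pow_one] at h
    have hm2' : (2:ℝ) ≤ m := by
      have : 2 ≤ m := by omega
      exact_mod_cast this
    have hpos : (0:ℝ) < ((m:ℝ) + 1) ^ (m+1) := by positivity
    have hX : (0:ℝ) < (4:ℝ) ^ m * (m.factorial : ℝ) := by positivity
    nlinarith

/-- **All codimensions.** For every `k` there is `m₀` such that in every dimension `m ≥ m₀`,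
for every compact convex `K ⊆ ℝ^m` invariant under the sign changes of all coordinates in a set
`S` with `|S| ≥ m - k`, and every interior point `z`, the product `|K| |(K - z)°|` is strictly
larger than the volume product of the simplex. -/
theorem symCoords_all_codim (k : ℕ) : ∃ m₀ : ℕ, ∀ m : ℕ, m₀ ≤ m →
    ∀ (K : Set (Fin m → ℝ)), IsCompact K → Convex ℝ K → ∀ S : Finset (Fin m),
      (∀ i ∈ S, ∀ x ∈ K, Function.update x i (-(x i)) ∈ K) → m ≤ S.card + k →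
      ∀ z ∈ interior K,
        ((m:ℝ) + 1) ^ (m+1) / (m.factorial : ℝ) ^ 2 <
          (MeasureTheory.volume K).toReal *
            (MeasureTheory.volume
              {y : Fin m → ℝ | ∀ x ∈ K, ∑ i, y i * (x i - z i) ≤ 1}).toReal :=
  gen2_allcodim_vol k

end Vale.Agent.Lib.P248.Gen
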