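import Vale.Agent.Lib.P248.Gen2.Final

open MeasureTheory Set Filter

namespace Vale.Agent.Lib.P248.Gen

private theorem gen2_explicit_succ_pow (m : ℕ) (hm : 1 ≤ m) :
    ((m:ℝ) + 1) ^ m ≤ Real.exp 1 * (m:ℝ) ^ m := by
  have hm0 : (0:ℝ) < m := by exact_mod_cast hm
  have h1 : (m:ℝ) + 1 = (m:ℝ) * (1 / (m:ℝ) + 1) := by
    field_simp
    ring
  have h2 : 1 / (m:ℝ) + 1 ≤ Real.exp (1 / (m:ℝ)) := Real.add_one_le_exp _
  have h3 : (0:ℝ) ≤ 1 / (m:ℝ) + 1 := by positivity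
  have h4 : (1 / (m:ℝ) + 1) ^ m ≤ Real.exp (1 / (m:ℝ)) ^ m := pow_le_pow_left₀ h3 h2 m
  have h5 : Real.exp (1 / (m:ℝ)) ^ m = Real.exp 1 := by
    rw [← Real.exp_nat_mul]
    congr 1
    field_simp
  rw [h1, mul_pow, mul_comm]
  rw [h5] at h4
  exact mul_le_mul_of_nonneg_right h4 (by positivity)

private theorem gen2_explicit_pow_le (m : ℕ) :
    (m:ℝ) ^ m ≤ Real.exp 1 ^ m * (m.factorial : ℝ) := by
  have h := Real.pow_div_factorial_le_exp (x := (m:ℝ)) (Nat.cast_nonneg m) m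
  have hf : (0:ℝ) < (m.factorial : ℝ) := by exact_mod_cast Nat.factorial_pos m
  rw [div_le_iff₀ hf] at h
  have e : Real.exp (m:ℝ) = Real.exp 1 ^ m := by
    rw [← Real.exp_nat_mul, mul_one]
  rw [e] at h
  exact h

/-- `q^2 ≤ 8 * 1.47^q` for `q ≥ 16`. -/
private theorem gen2_explicit_sq_le (q : ℕ) (hq : 16 ≤ q) :
    (q:ℝ) ^ 2 ≤ 8 * (147 / 100 : ℝ) ^ q := by
  induction q, hq using Nat.le_induction with
  | base => norm_num
  | succ q hq ih =>
    have hq' : (16:ℝ) ≤ q := by exact_mod_cast hq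
    have hstep : ((q:ℝ) + 1) ^ 2 ≤ 147 / 100 * (q:ℝ) ^ 2 := by nlinarith
    push_cast
    calc ((q:ℝ) + 1) ^ 2 ≤ 147 / 100 * (q:ℝ) ^ 2 := hstep
      _ ≤ 147 / 100 * (8 * (147 / 100 : ℝ) ^ q) := by
          apply mul_le_mul_of_nonneg_left ih (by norm_num)
      _ = 8 * (147 / 100 : ℝ) ^ (q + 1) := by ring

/-- `m^n ≤ 1.47^m` for `m ≥ 16 n^2`, `n ≥ 1`. -/
private theorem gen2_explicit_pow_le_exp (n m : ℕ) (hn : 1 ≤ n) (hm : 16 * n ^ 2 ≤ m) :
    (m:ℝ) ^ n ≤ (147 / 100 : ℝ) ^ m := by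
  set q := m / n with hq
  have hnq : n * q ≤ m := Nat.mul_div_le m n
  have hlt : m < n * (q + 1) := Nat.lt_mul_div_succ m (by omega)
  have hq16 : 16 * n ≤ q := by
    rw [hq, Nat.le_div_iff_mul_le (by omega)]
    nlinarith
  have hq16' : 16 ≤ q := by nlinarith
  have hF := gen2_explicit_sq_le q hq16'
  have hmq : (m:ℝ) ≤ (147 / 100 : ℝ) ^ q := by
    have h1 : (m:ℝ) ≤ (n:ℝ) * ((q:ℝ) + 1) := by
      have : m ≤ n * (q + 1) := hlt.le
      exact_mod_cast this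
    have h2 : (16:ℝ) * n ≤ q := by exact_mod_cast hq16
    have h3 : (16:ℝ) ≤ q := by exact_mod_cast hq16'
    have hn0 : (0:ℝ) ≤ n := Nat.cast_nonneg n
    have h4 : (n:ℝ) * ((q:ℝ) + 1) ≤ (q:ℝ) ^ 2 / 8 := by nlinarith
    linarith
  have h147 : (1:ℝ) ≤ 147 / 100 := by norm_num
  calc (m:ℝ) ^ n ≤ ((147 / 100 : ℝ) ^ q) ^ n := pow_le_pow_left₀ (Nat.cast_nonneg m) hmq n
    _ = (147 / 100 : ℝ) ^ (q * n) := by rw [← pow_mul]
    _ ≤ (147 / 100 : ℝ) ^ m := pow_le_pow_right₀ h147 (by rw [mul_comm]; exact hnq)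

/-- Explicit threshold: `(m+1)^(m+1) < (3/2) 4^m (m-k)!` for `m ≥ 16 (k+2)^2`. -/
theorem num_gap_explicit (k m : ℕ) (hm : 16 * (k + 2) ^ 2 ≤ m) :
    ((m:ℝ) + 1) ^ (m+1) < 3 / 2 * (4:ℝ) ^ m * ((m - k).factorial : ℝ) := by
  have h4 : 2 ^ 2 ≤ (k + 2) ^ 2 := Nat.pow_le_pow_left (by omega) 2
  have hm64 : 64 ≤ m :=
    calc 64 = 16 * 2 ^ 2 := by norm_num
      _ ≤ 16 * (k + 2) ^ 2 := Nat.mul_le_mul_left 16 h4
      _ ≤ m := hm
  have hkm : k ≤ m := by nlinarith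
  have hm1 : 1 ≤ m := by omega
  have hA := gen2_explicit_succ_pow m hm1
  have hB := gen2_explicit_pow_le m
  have hE := gen2_explicit_pow_le_exp (k + 2) m (by omega) hm
  have he : Real.exp 1 < 2.7182818286 := Real.exp_one_lt_d9
  have hepos : (0:ℝ) < Real.exp 1 := Real.exp_pos 1
  -- factorial comparison
  have hC : (m.factorial : ℝ) ≤ (m:ℝ) ^ k * ((m - k).factorial : ℝ) := by
    have h1 := Nat.factorial_mul_descFactorial hkm
    have h2 := Nat.descFactorial_le_pow m k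
    have h3 : m.factorial ≤ (m - k).factorial * m ^ k := by
      rw [← h1]
      exact Nat.mul_le_mul_left _ h2
    have h4 : (m.factorial : ℝ) ≤ ((m - k).factorial : ℝ) * (m:ℝ) ^ k := by exact_mod_cast h3
    linarith
  -- exponential comparison
  have hexp : Real.exp 1 ^ m * (147 / 100 : ℝ) ^ m ≤ (4:ℝ) ^ m := by
    rw [← mul_pow]
    apply pow_le_pow_left₀ (by positivity)
    nlinarith
  have hmR : (64:ℝ) ≤ m := by exact_mod_cast hm64
  have hmpos : (0:ℝ) < m := by linarith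
  have hmk : (0:ℝ) < (m:ℝ) ^ k := by positivity
  have hfk : (0:ℝ) < ((m - k).factorial : ℝ) := by exact_mod_cast Nat.factorial_pos _
  have hem : (0:ℝ) < Real.exp 1 ^ m := by positivity
  have h147m : (0:ℝ) < (147 / 100 : ℝ) ^ m := by positivity
  -- `2 (m+1) m^k ≤ 1.47^m`
  have hpoly : 2 * ((m:ℝ) + 1) * (m:ℝ) ^ k ≤ (147 / 100 : ℝ) ^ m := by
    have : 2 * ((m:ℝ) + 1) ≤ (m:ℝ) ^ 2 := by nlinarith
    calc 2 * ((m:ℝ) + 1) * (m:ℝ) ^ k ≤ (m:ℝ) ^ 2 * (m:ℝ) ^ k :=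
          mul_le_mul_of_nonneg_right this hmk.le
      _ = (m:ℝ) ^ (k + 2) := by ring
      _ ≤ (147 / 100 : ℝ) ^ m := hE
  -- assemble
  have h1 : ((m:ℝ) + 1) ^ (m+1) ≤
      ((m:ℝ) + 1) * Real.exp 1 * (Real.exp 1 ^ m * ((m:ℝ) ^ k * ((m - k).factorial : ℝ))) := by
    calc ((m:ℝ) + 1) ^ (m+1) = ((m:ℝ) + 1) * ((m:ℝ) + 1) ^ m := by ring
      _ ≤ ((m:ℝ) + 1) * (Real.exp 1 * (m:ℝ) ^ m) :=
          mul_le_mul_of_nonneg_left hA (by positivity)
      _ ≤ ((m:ℝ) + 1) * (Real.exp 1 * (Real.exp 1 ^ m * (m.factorial : ℝ))) := by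
          apply mul_le_mul_of_nonneg_left _ (by positivity)
          exact mul_le_mul_of_nonneg_left hB hepos.le
      _ ≤ ((m:ℝ) + 1) * (Real.exp 1 * (Real.exp 1 ^ m * ((m:ℝ) ^ k * ((m - k).factorial : ℝ)))) := by
          apply mul_le_mul_of_nonneg_left _ (by positivity)
          apply mul_le_mul_of_nonneg_left _ hepos.le
          exact mul_le_mul_of_nonneg_left hC hem.le
      _ = ((m:ℝ) + 1) * Real.exp 1 * (Real.exp 1 ^ m * ((m:ℝ) ^ k * ((m - k).factorial : ℝ))) := by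
          ring
  have h2 : ((m:ℝ) + 1) * Real.exp 1 * (Real.exp 1 ^ m * ((m:ℝ) ^ k * ((m - k).factorial : ℝ))) <
      3 / 2 * (4:ℝ) ^ m * ((m - k).factorial : ℝ) := by
    have hx : ((m:ℝ) + 1) * Real.exp 1 * (m:ℝ) ^ k < 3 / 2 * (147 / 100 : ℝ) ^ m := by
      have hlt3 : ((m:ℝ) + 1) * Real.exp 1 * (m:ℝ) ^ k < ((m:ℝ) + 1) * 3 * (m:ℝ) ^ k := by
        apply mul_lt_mul_of_pos_right _ hmk
        apply mul_lt_mul_of_pos_left _ (by positivity)
        linarith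
      nlinarith
    calc ((m:ℝ) + 1) * Real.exp 1 * (Real.exp 1 ^ m * ((m:ℝ) ^ k * ((m - k).factorial : ℝ)))
        = (((m:ℝ) + 1) * Real.exp 1 * (m:ℝ) ^ k) * (Real.exp 1 ^ m * ((m - k).factorial : ℝ)) := by
          ring
      _ < (3 / 2 * (147 / 100 : ℝ) ^ m) * (Real.exp 1 ^ m * ((m - k).factorial : ℝ)) :=
          mul_lt_mul_of_pos_right hx (by positivity)
      _ = 3 / 2 * (Real.exp 1 ^ m * (147 / 100 : ℝ) ^ m) * ((m - k).factorial : ℝ) := by ring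
      _ ≤ 3 / 2 * (4:ℝ) ^ m * ((m - k).factorial : ℝ) := by
          apply mul_le_mul_of_nonneg_right _ hfk.le
          apply mul_le_mul_of_nonneg_left hexp (by norm_num)
  exact lt_of_le_of_lt h1 h2

/-- **All codimensions, explicit threshold.** In every dimension `m ≥ 16 (k + 2)^2`, for every
compact convex `K ⊆ ℝ^m` invariant under the sign changes of all coordinates in a set `S` with
`|S| ≥ m - k`, and every interior point `z`, the product `|K| |(K - z)°|` is strictly larger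
than the volume product `(m+1)^(m+1) / (m!)^2` of the simplex. -/
theorem symCoords_codim_explicit (k m : ℕ) (hm : 16 * (k + 2) ^ 2 ≤ m)
    (K : Set (Fin m → ℝ)) (hK : IsCompact K) (hc : Convex ℝ K) (S : Finset (Fin m))
    (hflip : ∀ i ∈ S, ∀ x ∈ K, Function.update x i (-(x i)) ∈ K) (hS : m ≤ S.card + k)
    (z : Fin m → ℝ) (hz : z ∈ interior K) :
    ((m:ℝ) + 1) ^ (m+1) / (m.factorial : ℝ) ^ 2 <
      (MeasureTheory.volume K).toReal *
        (MeasureTheory.volume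
          {y : Fin m → ℝ | ∀ x ∈ K, ∑ i, y i * (x i - z i) ≤ 1}).toReal := by
  have h4 : 2 ^ 2 ≤ (k + 2) ^ 2 := Nat.pow_le_pow_left (by omega) 2
  have hm64 : 64 ≤ m :=
    calc 64 = 16 * 2 ^ 2 := by norm_num
      _ ≤ 16 * (k + 2) ^ 2 := Nat.mul_le_mul_left 16 h4
      _ ≤ m := hm
  have hk2 : k + 2 ≤ m := by nlinarith
  obtain ⟨-, -, -, c2, c7, -⟩ := symCoords_final2 K hK hc S hflip z hz
  rcases Nat.lt_or_ge S.card m with hlt | hge
  · apply c2 (by omega) hlt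
    have hfac : ((m - k).factorial : ℝ) ≤ ((S.card).factorial : ℝ) := by
      exact_mod_cast Nat.factorial_le (by omega)
    calc ((m:ℝ) + 1) ^ (m+1) < 3 / 2 * (4:ℝ) ^ m * ((m - k).factorial : ℝ) :=
          num_gap_explicit k m hm
      _ ≤ 3 / 2 * (4:ℝ) ^ m * ((S.card).factorial : ℝ) := by
          apply mul_le_mul_of_nonneg_left hfac
          positivity
  · exact c7 (by omega) (by omega)

end Vale.Agent.Lib.P248.Gen
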