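import Mathlib
import Vale.Agent.Lib.P248.Gen.Num

namespace Vale.Agent.Lib.P248.Gen

theorem arith_stepS (m s : ℕ) :
    (((s+1 : ℕ) : ℝ)) * (3 / 2 * (4:ℝ) ^ m * (s.factorial : ℝ) /
        (4 ^ s * (m.factorial : ℝ) ^ 2)) / ((m:ℝ) + 1) ^ 2 =
      3 / 2 * (4:ℝ) ^ (m+1) * ((s+1).factorial : ℝ) /
        (4 ^ (s+1) * ((m+1).factorial : ℝ) ^ 2) := by
  have hm : (m.factorial : ℝ) ≠ 0 := by exact_mod_cast Nat.factorial_ne_zero m
  have hm1 : ((m:ℝ) + 1) ≠ 0 := by positivity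
  rw [Nat.factorial_succ, Nat.factorial_succ]
  push_cast
  field_simp
  ring

theorem arith_stepF (m : ℕ) :
    4 * (3 / 2 * (4:ℝ) ^ m * ((Nat.factorial 1 : ℕ) : ℝ) /
        (4 ^ 1 * (m.factorial : ℝ) ^ 2)) / ((m:ℝ) + 1) ^ 2 =
      3 / 2 * (4:ℝ) ^ (m+1) * ((Nat.factorial 1 : ℕ) : ℝ) /
        (4 ^ 1 * ((m+1).factorial : ℝ) ^ 2) := by
  have hm : (m.factorial : ℝ) ≠ 0 := by exact_mod_cast Nat.factorial_ne_zero m
  have hm1 : ((m:ℝ) + 1) ≠ 0 := by positivity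
  rw [Nat.factorial_succ m]
  simp only [Nat.factorial_one]
  push_cast
  field_simp
  ring

/-- In natural numbers: `3 * 4^(n + 1) * n!` exceeds `2 * (n + 2)^(n + 2)` from `n = 6` on. -/
theorem gen2_arith_nat_one (n : ℕ) (hn : 6 ≤ n) :
    2 * (n + 2) ^ (n + 2) < 3 * 4 ^ (n + 1) * n.factorial := by
  induction n, hn using Nat.le_induction with
  | base => norm_num [Nat.factorial]
  | succ n hn ih =>
    have h1 := num_gen_pow_le (n + 2) (by omega)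
    have e1 : 2 * (n + 1 + 2) ^ (n + 1 + 2) = 2 * ((n + 3) * (n + 2 + 1) ^ (n + 2)) := by ring
    have e2 : 3 * 4 ^ (n + 1 + 1) * (n + 1).factorial
        = 4 * (n + 1) * (3 * 4 ^ (n + 1) * n.factorial) := by
      rw [Nat.factorial_succ]
      ring
    rw [e1, e2]
    calc 2 * ((n + 3) * (n + 2 + 1) ^ (n + 2))
        ≤ 2 * ((n + 3) * (3 * (n + 2) ^ (n + 2))) :=
          Nat.mul_le_mul_left _ (Nat.mul_le_mul_left _ h1)
      _ = (3 * (n + 3)) * (2 * (n + 2) ^ (n + 2)) := by ring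
      _ ≤ (4 * (n + 1)) * (2 * (n + 2) ^ (n + 2)) := Nat.mul_le_mul_right _ (by omega)
      _ < 4 * (n + 1) * (3 * 4 ^ (n + 1) * n.factorial) :=
          mul_lt_mul_of_pos_left ih (by omega)

/-- In natural numbers: `3 * 4^(n + 2) * n!` exceeds `2 * (n + 3)^(n + 3)` from `n = 16` on. -/
theorem gen2_arith_nat_two (n : ℕ) (hn : 16 ≤ n) :
    2 * (n + 3) ^ (n + 3) < 3 * 4 ^ (n + 2) * n.factorial := by
  induction n, hn using Nat.le_induction with
  | base => norm_num [Nat.factorial]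
  | succ n hn ih =>
    have h1 := num_gen_pow_le (n + 3) (by omega)
    have e1 : 2 * (n + 1 + 3) ^ (n + 1 + 3) = 2 * ((n + 4) * (n + 3 + 1) ^ (n + 3)) := by ring
    have e2 : 3 * 4 ^ (n + 1 + 2) * (n + 1).factorial
        = 4 * (n + 1) * (3 * 4 ^ (n + 2) * n.factorial) := by
      rw [Nat.factorial_succ]
      ring
    rw [e1, e2]
    calc 2 * ((n + 4) * (n + 3 + 1) ^ (n + 3))
        ≤ 2 * ((n + 4) * (3 * (n + 3) ^ (n + 3))) :=
          Nat.mul_le_mul_left _ (Nat.mul_le_mul_left _ h1)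
      _ = (3 * (n + 4)) * (2 * (n + 3) ^ (n + 3)) := by ring
      _ ≤ (4 * (n + 1)) * (2 * (n + 3) ^ (n + 3)) := Nat.mul_le_mul_right _ (by omega)
      _ < 4 * (n + 1) * (3 * 4 ^ (n + 2) * n.factorial) :=
          mul_lt_mul_of_pos_left ih (by omega)

/-- With one non-symmetric coordinate the improved bound exceeds the simplex value from
dimension seven on. -/
theorem num_gap_one7 (m : ℕ) (hm : 7 ≤ m) :
    ((m:ℝ) + 1) ^ (m+1) < 3 / 2 * (4:ℝ) ^ m * ((m-1).factorial : ℝ) := by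
  obtain ⟨n, rfl⟩ : ∃ n, m = n + 1 := ⟨m - 1, by omega⟩
  have h := gen2_arith_nat_one n (by omega)
  have hR : 2 * ((n:ℝ) + 2) ^ (n + 2) < 3 * (4:ℝ) ^ (n + 1) * (n.factorial : ℝ) := by
    exact_mod_cast h
  have e1 : (((n + 1 : ℕ) : ℝ) + 1) = (n:ℝ) + 2 := by
    push_cast
    ring
  have e2 : n + 1 - 1 = n := by omega
  rw [e1, e2]
  linarith

/-- With two non-symmetric coordinates the improved bound exceeds the simplex value from
dimension eighteen on. -/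
theorem num_gap_two18 (m : ℕ) (hm : 18 ≤ m) :
    ((m:ℝ) + 1) ^ (m+1) < 3 / 2 * (4:ℝ) ^ m * ((m-2).factorial : ℝ) := by
  obtain ⟨n, rfl⟩ : ∃ n, m = n + 2 := ⟨m - 2, by omega⟩
  have h := gen2_arith_nat_two n (by omega)
  have hR : 2 * ((n:ℝ) + 3) ^ (n + 3) < 3 * (4:ℝ) ^ (n + 2) * (n.factorial : ℝ) := by
    exact_mod_cast h
  have e1 : (((n + 2 : ℕ) : ℝ) + 1) = (n:ℝ) + 3 := by
    push_cast
    ring
  have e2 : n + 2 - 2 = n := by omega
  rw [e1, e2]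
  linarith

end Vale.Agent.Lib.P248.Gen
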