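import Vale.Agent.Lib.P248.Plane.Base2
import Vale.Agent.Lib.P248.Gen.Corner

open MeasureTheory Set

namespace Vale.Agent.Lib.P248.Gen

private theorem gen2_Base21_mem_one (i : Fin 2) : i ∈ ({1} : Finset (Fin 2)) ↔ i ≠ 0 := by
  fin_cases i <;> simp

private theorem gen2_Base21_halfCorner (C : Set (Fin 2 → ℝ)) (hC : GCorner {1} C) :
    HalfCorner C where
  closed := hC.closed
  convex := hC.convex
  bdd := hC.bdd
  nonneg := fun x hx i hi => hC.nonneg x hx i ((gen2_Base21_mem_one i).2 hi)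
  down := by
    intro x hx y h0 h1
    refine hC.down x hx y ?_ ?_
    · intro i hi
      have hi0 : i = 0 := by
        by_contra h
        exact hi ((gen2_Base21_mem_one i).2 h)
      rw [hi0]
      exact h0
    · intro i hi
      exact h1 i ((gen2_Base21_mem_one i).1 hi)
  box := by
    obtain ⟨r, hr, hbox⟩ := hC.box
    exact ⟨r, hr, fun y hy hy0 => hbox y hy
      (fun i hi => hy0 i ((gen2_Base21_mem_one i).1 hi))⟩

private theorem gen2_Base21_gdual (C : Set (Fin 2 → ℝ)) : gdual {1} C = dualCorner C := by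
  ext y
  constructor
  · rintro ⟨h1, h2⟩
    exact ⟨fun i hi => h1 i ((gen2_Base21_mem_one i).2 hi), h2⟩
  · rintro ⟨h1, h2⟩
    exact ⟨fun i hi => h1 i ((gen2_Base21_mem_one i).1 hi), h2⟩

private theorem gen2_Base21_one (C : Set (Fin 2 → ℝ)) (hC : GCorner {1} C) :
    3 / 2 ≤ vol C * vol (gdual {1} C) := by
  rw [gen2_Base21_gdual]
  exact halfCorner_base2 C (gen2_Base21_halfCorner C hC)

/-- The exchange of the two coordinates of the plane, as a measurable equivalence. -/
private noncomputable def gen2_Base21_sw : (Fin 2 → ℝ) ≃ᵐ (Fin 2 → ℝ) :=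
  (MeasurableEquiv.finTwoArrow (α := ℝ)).trans
    (MeasurableEquiv.prodComm.trans (MeasurableEquiv.finTwoArrow (α := ℝ)).symm)

private theorem gen2_Base21_sw_apply (y : Fin 2 → ℝ) : gen2_Base21_sw y = ![y 1, y 0] := by
  funext i
  fin_cases i <;> rfl

private theorem gen2_Base21_sw_mp : MeasurePreserving gen2_Base21_sw volume volume := by
  have h1 := volume_preserving_finTwoArrow ℝ
  have h2 : MeasurePreserving (MeasurableEquiv.prodComm : ℝ × ℝ ≃ᵐ ℝ × ℝ) volume volume :=
    Measure.measurePreserving_swap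
  exact (h1.symm.comp h2).comp h1

private theorem gen2_Base21_vol (C : Set (Fin 2 → ℝ)) :
    vol {x : Fin 2 → ℝ | (![x 1, x 0] : Fin 2 → ℝ) ∈ C} = vol C := by
  have h : {x : Fin 2 → ℝ | (![x 1, x 0] : Fin 2 → ℝ) ∈ C} = gen2_Base21_sw ⁻¹' C := by
    ext x
    rw [mem_preimage, gen2_Base21_sw_apply]
    rfl
  unfold vol
  rw [h, gen2_Base21_sw_mp.measure_preimage_equiv]

private theorem gen2_Base21_swap_swap (x : Fin 2 → ℝ) :
    (![(![x 1, x 0] : Fin 2 → ℝ) 1, (![x 1, x 0] : Fin 2 → ℝ) 0] : Fin 2 → ℝ) = x := by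
  funext i
  fin_cases i <;> rfl

private theorem gen2_Base21_swap_corner (C : Set (Fin 2 → ℝ)) (hC : GCorner {0} C) :
    GCorner {1} {x : Fin 2 → ℝ | (![x 1, x 0] : Fin 2 → ℝ) ∈ C} where
  closed := by
    have hcont : Continuous fun y : Fin 2 → ℝ => (![y 1, y 0] : Fin 2 → ℝ) :=
      continuous_pi (Fin.forall_fin_two.2 ⟨continuous_apply 1, continuous_apply 0⟩)
    exact hC.closed.preimage hcont
  convex := by
    intro x hx y hy a b ha hb hab
    have h := hC.convex hx hy ha hb hab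
    have heq : a • (![x 1, x 0] : Fin 2 → ℝ) + b • (![y 1, y 0] : Fin 2 → ℝ) =
        ![(a • x + b • y) 1, (a • x + b • y) 0] := by
      funext i
      fin_cases i <;> simp
    rw [heq] at h
    exact h
  bdd := by
    obtain ⟨R, hR⟩ := hC.bdd
    exact ⟨R, fun x hx => Fin.forall_fin_two.2 ⟨hR _ hx 1, hR _ hx 0⟩⟩
  nonneg := by
    intro x hx i hi
    rw [Finset.mem_singleton] at hi
    rw [hi]
    exact hC.nonneg _ hx 0 (Finset.mem_singleton_self 0)
  down := by
    intro x hx y h0 h1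
    refine hC.down _ hx _ ?_ ?_
    · intro i hi
      have hi1 : i = 1 := by
        fin_cases i
        · exact absurd (Finset.mem_singleton_self 0) hi
        · rfl
      rw [hi1]
      exact h0 0 (by decide)
    · intro i hi
      rw [Finset.mem_singleton] at hi
      rw [hi]
      exact h1 1 (Finset.mem_singleton_self 1)
  box := by
    obtain ⟨r, hr, hbox⟩ := hC.box
    refine ⟨r, hr, fun y hy hy0 => hbox _ (Fin.forall_fin_two.2 ⟨hy 1, hy 0⟩) ?_⟩
    intro i hi
    rw [Finset.mem_singleton] at hi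
    rw [hi]
    exact hy0 1 (Finset.mem_singleton_self 1)

private theorem gen2_Base21_swap_gdual (C : Set (Fin 2 → ℝ)) :
    gdual {1} {x : Fin 2 → ℝ | (![x 1, x 0] : Fin 2 → ℝ) ∈ C} =
      {y : Fin 2 → ℝ | (![y 1, y 0] : Fin 2 → ℝ) ∈ gdual {0} C} := by
  ext y
  constructor
  · rintro ⟨h1, h2⟩
    refine ⟨?_, ?_⟩
    · intro i hi
      rw [Finset.mem_singleton] at hi
      rw [hi]
      exact h1 1 (Finset.mem_singleton_self 1)
    · intro x hx
      have hx' : (![x 1, x 0] : Fin 2 → ℝ) ∈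
          {x : Fin 2 → ℝ | (![x 1, x 0] : Fin 2 → ℝ) ∈ C} := by
        show (![(![x 1, x 0] : Fin 2 → ℝ) 1, (![x 1, x 0] : Fin 2 → ℝ) 0] : Fin 2 → ℝ) ∈ C
        rw [gen2_Base21_swap_swap]
        exact hx
      have h := h2 _ hx'
      rw [Fin.sum_univ_two] at h ⊢
      have h' : x 1 * y 0 + x 0 * y 1 ≤ 1 := h
      show x 0 * y 1 + x 1 * y 0 ≤ 1
      linarith
  · rintro ⟨h1, h2⟩
    refine ⟨?_, ?_⟩
    · intro i hi
      rw [Finset.mem_singleton] at hi
      rw [hi]
      exact h1 0 (Finset.mem_singleton_self 0)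
    · intro x hx
      have h := h2 _ hx
      rw [Fin.sum_univ_two] at h ⊢
      have h' : x 1 * y 1 + x 0 * y 0 ≤ 1 := h
      linarith

/-- Dimension two with exactly one symmetric coordinate: `3/2 ≤ |C| |C^d|`. -/
theorem gcorner_base21 (S : Finset (Fin 2)) (hS : S.card = 1) (C : Set (Fin 2 → ℝ))
    (hC : GCorner S C) : 3 / 2 ≤ vol C * vol (gdual S C) := by
  obtain ⟨a, rfl⟩ := Finset.card_eq_one.1 hS
  have ha : a = 0 ∨ a = 1 := by
    fin_cases a
    · exact Or.inl rfl
    · exact Or.inr rfl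
  rcases ha with rfl | rfl
  · have h := gen2_Base21_one _ (gen2_Base21_swap_corner C hC)
    rw [gen2_Base21_swap_gdual, gen2_Base21_vol C, gen2_Base21_vol (gdual {0} C)] at h
    exact h
  · exact gen2_Base21_one C hC

end Vale.Agent.Lib.P248.Gen
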