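import Vale.Agent.Lib.P248.Gen.FreeCone

open MeasureTheory Set

namespace Vale.Agent.Lib.P248.Gen

variable {m : ℕ} {S : Finset (Fin (m+1))} {C : Set (Fin (m+1) → ℝ)}

/-- The slice of a convex set at height `τ` of the coordinate `j` contains a homothetic copy of
the section `x j = 0`, centred at the projection of a point `p` of the set, when `τ / p j` lies
in `[0,1]`. -/
theorem gen2_FreeCone_slice (hconv : Convex ℝ C) (j : Fin (m+1)) {p : Fin (m+1) → ℝ}
    (hp : p ∈ C) (hp0 : p j ≠ 0) {τ : ℝ} (h0 : 0 ≤ τ / p j) (h1 : τ / p j ≤ 1) :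
    AffineMap.homothety (j.removeNth p) (1 - τ / p j) '' (gfacet C j) ⊆
      {g : Fin m → ℝ | j.insertNth τ g ∈ C} := by
  rintro _ ⟨g, hg, rfl⟩
  have htp : τ / p j * p j = τ := div_mul_cancel₀ τ hp0
  have hgC : (j.insertNth (0 : ℝ) g : Fin (m+1) → ℝ) ∈ C := hg
  have hx : (j.insertNth τ
        (AffineMap.homothety (j.removeNth p) (1 - τ / p j) g) : Fin (m+1) → ℝ)
      = (1 - τ / p j) • (j.insertNth (0 : ℝ) g : Fin (m+1) → ℝ)
        + (τ / p j) • p := by
    funext i
    by_cases hi : i = j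
    · subst hi
      simp only [Pi.add_apply, Pi.smul_apply, smul_eq_mul, Fin.insertNth_apply_same]
      rw [htp]
      ring
    · obtain ⟨k, rfl⟩ := Fin.exists_succAbove_eq hi
      rw [Fin.insertNth_apply_succAbove, AffineMap.homothety_apply]
      simp only [vsub_eq_sub, vadd_eq_add, Pi.add_apply, Pi.smul_apply, Pi.sub_apply,
        smul_eq_mul, Fin.removeNth, Fin.insertNth_apply_succAbove]
      ring
  show (j.insertNth τ
        (AffineMap.homothety (j.removeNth p) (1 - τ / p j) g) : Fin (m+1) → ℝ) ∈ C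
  rw [hx]
  exact hconv hgC hp (by linarith) h0 (by ring)

/-- A corner contains the double cone over its section `x j = 0` with apexes `p` and `q` on the
two sides of that hyperplane. -/
theorem vol_ge_dcone_gen (hC : GCorner S C) (j : Fin (m+1)) {p q : Fin (m+1) → ℝ}
    (hp : p ∈ C) (hq : q ∈ C) (hp0 : 0 < p j) (hq0 : q j < 0) :
    (p j - q j) * vol (gfacet C j) ≤ ((m:ℝ) + 1) * vol C := by
  have hmeas : MeasurableSet C := gcorner_measurable hC
  have hfin : volume C ≠ ⊤ := gcorner_volume_ne_top hC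
  have hslice := volume_eq_lintegral_slice j hmeas
  have hm : (0:ℝ) < (m:ℝ) + 1 := by positivity
  have hlowp : ∀ τ ∈ Ioo (0:ℝ) (p j),
      ENNReal.ofReal ((1 - τ / p j) ^ m) * volume (gfacet C j)
        ≤ volume {g : Fin m → ℝ | j.insertNth τ g ∈ C} := by
    intro τ hτ
    have ht0 : 0 ≤ τ / p j := (div_pos hτ.1 hp0).le
    have ht1 : τ / p j ≤ 1 := ((div_lt_one hp0).mpr hτ.2).le
    have h1 := gen2_FreeCone_slice hC.convex j hp hp0.ne' ht0 ht1
    have h2 := measure_mono (μ := volume) h1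
    rw [Measure.addHaar_image_homothety, Module.finrank_fin_fun] at h2
    have hnn : 0 ≤ (1 - τ / p j) ^ m := pow_nonneg (by linarith) m
    rw [abs_of_nonneg hnn] at h2
    exact h2
  have hlowq : ∀ τ ∈ Ioo (q j) (0:ℝ),
      ENNReal.ofReal ((1 - τ / q j) ^ m) * volume (gfacet C j)
        ≤ volume {g : Fin m → ℝ | j.insertNth τ g ∈ C} := by
    intro τ hτ
    have ht0 : 0 ≤ τ / q j := (div_pos_of_neg_of_neg hτ.2 hq0).le
    have ht1 : τ / q j ≤ 1 := by
      rw [div_le_one_of_neg hq0]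
      exact hτ.1.le
    have h1 := gen2_FreeCone_slice hC.convex j hq hq0.ne ht0 ht1
    have h2 := measure_mono (μ := volume) h1
    rw [Measure.addHaar_image_homothety, Module.finrank_fin_fun] at h2
    have hnn : 0 ≤ (1 - τ / q j) ^ m := pow_nonneg (by linarith) m
    rw [abs_of_nonneg hnn] at h2
    exact h2
  have hprofp : ∫⁻ τ in Ioo (0:ℝ) (p j), ENNReal.ofReal ((1 - τ / p j) ^ m)
      = ENNReal.ofReal (p j / ((m:ℝ) + 1)) := by
    rw [freeCone_profile m hp0.ne' hp0.le (fun τ hτ => by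
      have h : τ / p j < 1 := (div_lt_one hp0).mpr hτ.2
      linarith)]
    congr 1
    rw [div_self hp0.ne']
    simp
  have hprofq : ∫⁻ τ in Ioo (q j) (0:ℝ), ENNReal.ofReal ((1 - τ / q j) ^ m)
      = ENNReal.ofReal (-q j / ((m:ℝ) + 1)) := by
    rw [freeCone_profile m hq0.ne hq0.le (fun τ hτ => by
      have h : τ / q j ≤ 1 := by
        rw [div_le_one_of_neg hq0]
        exact hτ.1.le
      linarith)]
    congr 1
    rw [div_self hq0.ne]
    simp
    ring
  have hmeasfp : Measurable (fun τ : ℝ => ENNReal.ofReal ((1 - τ / p j) ^ m)) := by fun_prop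
  have hmeasfq : Measurable (fun τ : ℝ => ENNReal.ofReal ((1 - τ / q j) ^ m)) := by fun_prop
  have hdisj : Disjoint (Ioo (q j) (0:ℝ)) (Ioo (0:ℝ) (p j)) := by
    rw [Set.disjoint_left]
    intro τ h1 h2
    exact absurd h1.2 (not_lt.mpr h2.1.le)
  have hmain : ENNReal.ofReal ((p j - q j) / ((m:ℝ) + 1)) * volume (gfacet C j)
      ≤ volume C := by
    have e : ENNReal.ofReal ((p j - q j) / ((m:ℝ) + 1))
        = ENNReal.ofReal (-q j / ((m:ℝ) + 1)) + ENNReal.ofReal (p j / ((m:ℝ) + 1)) := by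
      rw [← ENNReal.ofReal_add (div_nonneg (by linarith) hm.le) (div_nonneg hp0.le hm.le)]
      congr 1
      ring
    rw [e, add_mul, ← hprofq, ← hprofp, ← lintegral_mul_const _ hmeasfq,
      ← lintegral_mul_const _ hmeasfp, hslice]
    calc (∫⁻ τ in Ioo (q j) (0:ℝ), ENNReal.ofReal ((1 - τ / q j) ^ m) * volume (gfacet C j))
          + ∫⁻ τ in Ioo (0:ℝ) (p j), ENNReal.ofReal ((1 - τ / p j) ^ m) * volume (gfacet C j)
        ≤ (∫⁻ τ in Ioo (q j) (0:ℝ),
              volume {g : Fin m → ℝ | j.insertNth τ g ∈ C})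
          + ∫⁻ τ in Ioo (0:ℝ) (p j),
              volume {g : Fin m → ℝ | j.insertNth τ g ∈ C} :=
          add_le_add (setLIntegral_mono' measurableSet_Ioo hlowq)
            (setLIntegral_mono' measurableSet_Ioo hlowp)
      _ = ∫⁻ τ in Ioo (q j) (0:ℝ) ∪ Ioo (0:ℝ) (p j),
            volume {g : Fin m → ℝ | j.insertNth τ g ∈ C} :=
          (lintegral_union measurableSet_Ioo hdisj).symm
      _ ≤ ∫⁻ τ : ℝ, volume {g : Fin m → ℝ | j.insertNth τ g ∈ C} :=
          setLIntegral_le_lintegral _ _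
  have h3 := ENNReal.toReal_mono hfin hmain
  rw [ENNReal.toReal_mul, ENNReal.toReal_ofReal (div_nonneg (by linarith) hm.le)] at h3
  unfold vol
  rw [div_mul_eq_mul_div, div_le_iff₀ hm] at h3
  linarith

end Vale.Agent.Lib.P248.Gen
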