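import Vale.Agent.Lib.P248.Gen.FreeFiber

open MeasureTheory Set

namespace Vale.Agent.Lib.P248.Gen

/-- `∫₀^q (1 - τ/q)^m dτ = q/(m+1)` as a lower integral. -/
private theorem gen2_FreeFiber_profile (m : ℕ) {q : ℝ} (hq : 0 < q) :
    ∫⁻ τ in Ioo (0:ℝ) q, ENNReal.ofReal ((1 - τ / q) ^ m)
      = ENNReal.ofReal (q / ((m:ℝ) + 1)) := by
  have hcont : Continuous (fun τ : ℝ => (1 - τ / q) ^ m) := by fun_prop
  have hnn : 0 ≤ᵐ[volume.restrict (Ioo (0:ℝ) q)] fun τ : ℝ => (1 - τ / q) ^ m := by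
    filter_upwards [ae_restrict_mem measurableSet_Ioo] with τ hτ
    apply pow_nonneg
    have h : τ / q < 1 := (div_lt_one hq).mpr hτ.2
    linarith
  have hintg : Integrable (fun τ : ℝ => (1 - τ / q) ^ m) (volume.restrict (Ioo (0:ℝ) q)) :=
    (hcont.integrableOn_Icc (a := 0) (b := q)).mono_set Ioo_subset_Icc_self
  rw [← ofReal_integral_eq_lintegral_ofReal hintg hnn]
  have hq0 : q ≠ 0 := hq.ne'
  have hn0 : ((m:ℝ) + 1) ≠ 0 := by positivity
  have hderiv : ∀ τ ∈ uIcc (0:ℝ) q,
      HasDerivAt (fun τ : ℝ => -(q / ((m:ℝ) + 1)) * (1 - τ / q) ^ (m+1))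
        ((1 - τ / q) ^ m) τ := by
    intro τ _
    have h1 : HasDerivAt (fun τ : ℝ => 1 - τ / q) (-(1 / q)) τ := by
      have h := ((hasDerivAt_id τ).div_const q).const_sub 1
      simpa using h
    have h2 := (h1.pow (m+1)).const_mul (-(q / ((m:ℝ) + 1)))
    refine h2.congr_deriv ?_
    simp only [Nat.add_sub_cancel]
    push_cast
    field_simp
  have hval : ∫ τ in Ioo (0:ℝ) q, (1 - τ / q) ^ m = q / ((m:ℝ) + 1) := by
    rw [← integral_Ioc_eq_integral_Ioo, ← intervalIntegral.integral_of_le hq.le,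
      intervalIntegral.integral_eq_sub_of_hasDerivAt hderiv (hcont.intervalIntegrable _ _)]
    simp [div_self hq0]
  rw [hval]

/-- Linear combinations of points written with `insertNth` at position `j`. -/
private theorem gen2_FreeFiber_insert_comb {m : ℕ} (j : Fin (m+1)) (a b s t : ℝ)
    (g h : Fin m → ℝ) :
    a • (j.insertNth s g : Fin (m+1) → ℝ) + b • (j.insertNth t h : Fin (m+1) → ℝ) =
      j.insertNth (a * s + b * t) (a • g + b • h) := by
  ext i
  refine Fin.succAboveCases j ?_ (fun k => ?_) i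
  · simp
  · simp

/-- A compact convex set containing the two points `t₁ e_j` and `t₂ e_j` of the `j`-th
coordinate axis has volume at least `(t₂ - t₁) / (m+1)` times the volume of its projection along
that axis. -/
theorem vol_ge_fiber_gen {m : ℕ} {D : Set (Fin (m+1) → ℝ)} (hD : IsCompact D)
    (hc : Convex ℝ D) (j : Fin (m+1)) {t₁ t₂ : ℝ} (ht : t₁ ≤ t₂)
    (h1 : j.insertNth t₁ (0 : Fin m → ℝ) ∈ D)
    (h2 : j.insertNth t₂ (0 : Fin m → ℝ) ∈ D) :
    (t₂ - t₁) * vol {g : Fin m → ℝ | ∃ t : ℝ, j.insertNth t g ∈ D} ≤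
      ((m:ℝ) + 1) * vol D := by
  set P : Set (Fin m → ℝ) := {g | ∃ t : ℝ, j.insertNth t g ∈ D} with hPdef
  have hm1 : (0:ℝ) < (m:ℝ) + 1 := by positivity
  rcases ht.eq_or_lt with heq | hlt
  · rw [heq, sub_self, zero_mul]
    exact mul_nonneg hm1.le ENNReal.toReal_nonneg
  set L : ℝ := t₂ - t₁ with hL
  have hLpos : 0 < L := sub_pos.mpr hlt
  have hPimg : P = (fun x : Fin (m+1) → ℝ => j.removeNth x) '' D := by
    ext g
    constructor
    · rintro ⟨t, htg⟩
      exact ⟨_, htg, by simp⟩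
    · rintro ⟨x, hx, rfl⟩
      exact ⟨x j, by simpa using hx⟩
  have hPc : IsCompact P := by
    rw [hPimg]
    refine hD.image ?_
    exact continuous_pi fun k => continuous_apply _
  have hPm : MeasurableSet P := hPc.isClosed.measurableSet
  have hPfin : volume P ≠ ⊤ := hPc.measure_lt_top.ne
  have hDm : MeasurableSet D := hD.isClosed.measurableSet
  have hDfin : volume D ≠ ⊤ := hD.measure_lt_top.ne
  set φ : (Fin m → ℝ) → ENNReal :=
    fun g => volume {t : ℝ | j.insertNth t g ∈ D} with hφ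
  have hfub : volume D = ∫⁻ g, φ g := by
    have he := volume_preserving_piFinSuccAbove (fun _ : Fin (m+1) => ℝ) j
    have h1' : volume ((MeasurableEquiv.piFinSuccAbove (fun _ : Fin (m+1) => ℝ) j).symm ⁻¹' D)
        = volume D := he.symm.measure_preimage hDm.nullMeasurableSet
    have hm' : MeasurableSet
        ((MeasurableEquiv.piFinSuccAbove (fun _ : Fin (m+1) => ℝ) j).symm ⁻¹' D) :=
      (MeasurableEquiv.piFinSuccAbove (fun _ : Fin (m+1) => ℝ) j).symm.measurable hDm
    rw [← h1', Measure.volume_eq_prod, Measure.prod_apply_symm hm']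
    rfl
  set E : Set ((Fin m → ℝ) × ℝ) :=
    {p | 0 < p.2 ∧ p.2 < L ∧ (1 - p.2 / L)⁻¹ • p.1 ∈ P} with hE
  have hEm : MeasurableSet E := by
    have hF : Measurable (fun p : (Fin m → ℝ) × ℝ => (1 - p.2 / L)⁻¹ • p.1) := by
      fun_prop
    have e1 : MeasurableSet {p : (Fin m → ℝ) × ℝ | 0 < p.2} :=
      measurableSet_lt measurable_const measurable_snd
    have e2 : MeasurableSet {p : (Fin m → ℝ) × ℝ | p.2 < L} :=
      measurableSet_lt measurable_snd measurable_const
    have e3 : MeasurableSet {p : (Fin m → ℝ) × ℝ | (1 - p.2 / L)⁻¹ • p.1 ∈ P} := hF hPm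
    exact e1.inter (e2.inter e3)
  have hkey : ∀ g c, (g, c) ∈ E → ENNReal.ofReal c ≤ φ g := by
    rintro g c ⟨hc0, hcL, ⟨s, hs⟩⟩
    have hθ0 : 0 < c / L := div_pos hc0 hLpos
    have hθ1 : c / L < 1 := (div_lt_one hLpos).mpr hcL
    have hρ : 0 < 1 - c / L := by linarith
    have hsub : Icc (c / L * t₁ + (1 - c / L) * s) (c / L * t₂ + (1 - c / L) * s) ⊆
        {t : ℝ | j.insertNth t g ∈ D} := by
      intro t htt
      have hτ1 : t₁ ≤ (t - (1 - c / L) * s) / (c / L) := by
        rw [le_div_iff₀ hθ0]; linarith [htt.1]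
      have hτ2 : (t - (1 - c / L) * s) / (c / L) ≤ t₂ := by
        rw [div_le_iff₀ hθ0]; linarith [htt.2]
      have haxis : j.insertNth ((t - (1 - c / L) * s) / (c / L))
          (0 : Fin m → ℝ) ∈ D := by
        set τ : ℝ := (t - (1 - c / L) * s) / (c / L) with hτ
        have hl0 : 0 ≤ (τ - t₁) / L := div_nonneg (by linarith) hLpos.le
        have hl1 : 0 ≤ 1 - (τ - t₁) / L := by
          have : (τ - t₁) / L ≤ 1 := (div_le_one hLpos).mpr (by rw [hL]; linarith)
          linarith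
        have h := hc h1 h2 hl1 hl0 (by ring)
        rw [gen2_FreeFiber_insert_comb] at h
        have e : (1 - (τ - t₁) / L) * t₁ + (τ - t₁) / L * t₂ = τ := by
          rw [hL]
          have : t₂ - t₁ ≠ 0 := by rw [← hL]; exact hLpos.ne'
          field_simp
          ring
        rw [e] at h
        simpa using h
      have hcomb := hc haxis hs hθ0.le hρ.le (by ring)
      rw [gen2_FreeFiber_insert_comb] at hcomb
      have e1 : c / L * ((t - (1 - c / L) * s) / (c / L)) + (1 - c / L) * s = t := by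
        field_simp
        ring
      have e2 : (c / L) • (0 : Fin m → ℝ) + (1 - c / L) • ((1 - c / L)⁻¹ • g) = g := by
        rw [smul_zero, zero_add, smul_smul, mul_inv_cancel₀ hρ.ne', one_smul]
      rw [e1, e2] at hcomb
      exact hcomb
    calc ENNReal.ofReal c
        = volume (Icc (c / L * t₁ + (1 - c / L) * s) (c / L * t₂ + (1 - c / L) * s)) := by
          rw [Real.volume_Icc]
          congr 1
          rw [hL]
          have : t₂ - t₁ ≠ 0 := by rw [← hL]; exact hLpos.ne'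
          field_simp
          ring
      _ ≤ φ g := measure_mono hsub
  have hsec : ∀ g, volume (Prod.mk g ⁻¹' E) ≤ φ g := by
    intro g
    by_cases htop : φ g = ⊤
    · rw [htop]; exact le_top
    · have hsub : Prod.mk g ⁻¹' E ⊆ Ioc 0 (φ g).toReal := by
        intro c hcE
        have h := hkey g c hcE
        exact ⟨hcE.1, (ENNReal.ofReal_le_iff_le_toReal htop).mp h⟩
      calc volume (Prod.mk g ⁻¹' E) ≤ volume (Ioc 0 (φ g).toReal) := measure_mono hsub
        _ = φ g := by rw [Real.volume_Ioc, sub_zero, ENNReal.ofReal_toReal htop]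
  have hT1 : (volume.prod volume) E = ∫⁻ g, volume (Prod.mk g ⁻¹' E) :=
    Measure.prod_apply hEm
  have hT2 : (volume.prod volume) E = ∫⁻ c, volume ((fun g : Fin m → ℝ => (g, c)) ⁻¹' E) :=
    Measure.prod_apply_symm hEm
  have hslice : ∀ c ∈ Ioo (0:ℝ) L, volume ((fun g : Fin m → ℝ => (g, c)) ⁻¹' E) =
      ENNReal.ofReal ((1 - c / L) ^ m) * volume P := by
    intro c hcI
    have hρ : 0 < 1 - c / L := by
      have : c / L < 1 := (div_lt_one hLpos).mpr hcI.2
      linarith
    have hset : (fun g : Fin m → ℝ => (g, c)) ⁻¹' E =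
        (fun g : Fin m → ℝ => (1 - c / L)⁻¹ • g) ⁻¹' P := by
      ext g
      simp only [mem_preimage, hE, mem_ofPred_eq]
      exact ⟨fun h => h.2.2, fun h => ⟨hcI.1, hcI.2, h⟩⟩
    rw [hset, Measure.addHaar_preimage_smul volume (inv_ne_zero hρ.ne')]
    congr 1
    simp [abs_of_pos (pow_pos hρ m)]
  have hlow : ENNReal.ofReal (L / ((m:ℝ) + 1)) * volume P ≤
      ∫⁻ c, volume ((fun g : Fin m → ℝ => (g, c)) ⁻¹' E) := by
    have hmeas : Measurable fun c : ℝ => ENNReal.ofReal ((1 - c / L) ^ m) := by fun_prop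
    calc ENNReal.ofReal (L / ((m:ℝ) + 1)) * volume P
        = (∫⁻ c in Ioo (0:ℝ) L, ENNReal.ofReal ((1 - c / L) ^ m)) * volume P := by
          rw [gen2_FreeFiber_profile m hLpos]
      _ = ∫⁻ c in Ioo (0:ℝ) L, ENNReal.ofReal ((1 - c / L) ^ m) * volume P := by
          rw [lintegral_mul_const _ hmeas]
      _ = ∫⁻ c in Ioo (0:ℝ) L, volume ((fun g : Fin m → ℝ => (g, c)) ⁻¹' E) := by
          refine setLIntegral_congr_fun measurableSet_Ioo ?_
          intro c hcI
          exact (hslice c hcI).symm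
      _ ≤ ∫⁻ c, volume ((fun g : Fin m → ℝ => (g, c)) ⁻¹' E) := setLIntegral_le_lintegral _ _
  have hfinal : ENNReal.ofReal (L / ((m:ℝ) + 1)) * volume P ≤ volume D := by
    calc ENNReal.ofReal (L / ((m:ℝ) + 1)) * volume P
        ≤ ∫⁻ c, volume ((fun g : Fin m → ℝ => (g, c)) ⁻¹' E) := hlow
      _ = ∫⁻ g, volume (Prod.mk g ⁻¹' E) := by rw [← hT2, hT1]
      _ ≤ ∫⁻ g, φ g := lintegral_mono hsec
      _ = volume D := hfub.symm
  have hreal : L / ((m:ℝ) + 1) * (volume P).toReal ≤ (volume D).toReal := by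
    have h := ENNReal.toReal_mono hDfin hfinal
    rwa [ENNReal.toReal_mul, ENNReal.toReal_ofReal (by positivity)] at h
  unfold vol
  have h3 := mul_le_mul_of_nonneg_left hreal hm1.le
  calc L * (volume P).toReal = ((m:ℝ) + 1) * (L / ((m:ℝ) + 1) * (volume P).toReal) := by
        field_simp
    _ ≤ ((m:ℝ) + 1) * (volume D).toReal := h3

end Vale.Agent.Lib.P248.Gen
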