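import Vale.Agent.Lib.P248.Gen.FreeProj

open MeasureTheory Set

namespace Vale.Agent.Lib.P248.Gen

variable {m : ℕ} {S : Finset (Fin (m+1))} {C : Set (Fin (m+1) → ℝ)}

/-- Membership in the set of the remaining symmetric coordinates. -/
private theorem gen2_FreeProj_mem_subS {i : Fin (m+1)} {k : Fin m} :
    k ∈ subS S i ↔ i.succAbove k ∈ S := by
  unfold subS
  rw [Finset.mem_filter]
  exact ⟨fun h => h.2, fun h => ⟨Finset.mem_univ k, h⟩⟩

/-- Coordinate `j` of the inserted point. -/
private theorem gen2_FreeProj_insert_same (j : Fin (m+1)) (t : ℝ) (g : Fin m → ℝ) :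
    (j.insertNth t g : Fin (m+1) → ℝ) j = t :=
  Fin.insertNth_apply_same (α := fun _ => ℝ) j t g

/-- The other coordinates of the inserted point. -/
private theorem gen2_FreeProj_insert_succAbove (j : Fin (m+1)) (t : ℝ) (g : Fin m → ℝ)
    (k : Fin m) : (j.insertNth t g : Fin (m+1) → ℝ) (j.succAbove k) = g k :=
  Fin.insertNth_apply_succAbove (α := fun _ => ℝ) j t g k

/-- The pairing with an inserted point. -/
private theorem gen2_FreeProj_sum (j : Fin (m+1)) (x : Fin (m+1) → ℝ) (t : ℝ)
    (g : Fin m → ℝ) :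
    ∑ i, x i * (j.insertNth t g : Fin (m+1) → ℝ) i
      = x j * t + ∑ k, x (j.succAbove k) * g k := by
  rw [Fin.sum_univ_succAbove _ j]
  simp only [gen2_FreeProj_insert_same, gen2_FreeProj_insert_succAbove]

/-- A point with vanishing coordinate `j` is the inserted point of its other coordinates. -/
private theorem gen2_FreeProj_insert_tail (j : Fin (m+1)) (w : Fin (m+1) → ℝ) (hw : w j = 0) :
    (j.insertNth (0 : ℝ) (fun k => w (j.succAbove k)) : Fin (m+1) → ℝ) = w := by
  funext i
  rcases eq_or_ne i j with hij | hij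
  · rw [hij, gen2_FreeProj_insert_same, hw]
  · obtain ⟨k, rfl⟩ := Fin.exists_succAbove_eq hij
    rw [gen2_FreeProj_insert_succAbove]

/-- Removing a free coordinate keeps the number of symmetric coordinates. -/
theorem card_subS_of_notMem (j : Fin (m+1)) (hj : j ∉ S) : (subS S j).card = S.card := by
  have hS : S = (subS S j).image j.succAbove := by
    ext i
    rw [Finset.mem_image]
    constructor
    · intro hi
      have hij : i ≠ j := fun h => hj (h ▸ hi)
      obtain ⟨k, rfl⟩ := Fin.exists_succAbove_eq hij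
      exact ⟨k, gen2_FreeProj_mem_subS.2 hi, rfl⟩
    · rintro ⟨k, hk, rfl⟩
      exact gen2_FreeProj_mem_subS.1 hk
  have hcard : ((subS S j).image j.succAbove).card = (subS S j).card :=
    Finset.card_image_of_injective _ Fin.succAbove_right_injective
  calc (subS S j).card = ((subS S j).image j.succAbove).card := hcard.symm
    _ = S.card := (congrArg Finset.card hS).symm

/-- The section of a corner by the hyperplane `x j = 0` of a free coordinate is a corner. -/
theorem gcorner_facet_free_gen (hC : GCorner S C) (j : Fin (m+1)) (hj : j ∉ S) :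
    GCorner (subS S j) (gfacet C j) := by
  have _hjS : j ∉ S := hj
  refine ⟨?_, ?_, ?_, ?_, ?_, ?_⟩
  · have hcont : Continuous
        (fun g : Fin m → ℝ => (j.insertNth (0 : ℝ) g : Fin (m+1) → ℝ)) := by
      refine continuous_pi (fun i => ?_)
      rcases eq_or_ne i j with hij | hij
      · rw [hij]
        simp only [gen2_FreeProj_insert_same]
        exact continuous_const
      · obtain ⟨k, rfl⟩ := Fin.exists_succAbove_eq hij
        simp only [gen2_FreeProj_insert_succAbove]
        exact continuous_apply k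
    exact hC.closed.preimage hcont
  · intro g hg g' hg' a b ha hb hab
    have e : (j.insertNth (0 : ℝ) (a • g + b • g') : Fin (m+1) → ℝ)
        = a • (j.insertNth (0 : ℝ) g : Fin (m+1) → ℝ) + b • (j.insertNth (0 : ℝ) g') := by
      funext i
      rcases eq_or_ne i j with hij | hij
      · rw [hij]
        simp only [gen2_FreeProj_insert_same, Pi.add_apply, Pi.smul_apply, smul_eq_mul,
          mul_zero, add_zero]
      · obtain ⟨k, rfl⟩ := Fin.exists_succAbove_eq hij
        simp only [gen2_FreeProj_insert_succAbove, Pi.add_apply, Pi.smul_apply, smul_eq_mul]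
    show (j.insertNth (0 : ℝ) (a • g + b • g') : Fin (m+1) → ℝ) ∈ C
    rw [e]
    exact hC.convex hg hg' ha hb hab
  · obtain ⟨R, hR⟩ := hC.bdd
    refine ⟨R, fun g hg k => ?_⟩
    have h := hR _ hg (j.succAbove k)
    rwa [gen2_FreeProj_insert_succAbove] at h
  · intro g hg k hk
    have h := hC.nonneg _ hg (j.succAbove k) (gen2_FreeProj_mem_subS.1 hk)
    rwa [gen2_FreeProj_insert_succAbove] at h
  · intro g hg g' h0 h
    show (j.insertNth (0 : ℝ) g' : Fin (m+1) → ℝ) ∈ C
    refine hC.down _ hg _ ?_ ?_
    · intro i hiS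
      rcases eq_or_ne i j with hij | hij
      · rw [hij, gen2_FreeProj_insert_same, gen2_FreeProj_insert_same]
      · obtain ⟨k, rfl⟩ := Fin.exists_succAbove_eq hij
        rw [gen2_FreeProj_insert_succAbove, gen2_FreeProj_insert_succAbove]
        exact h0 k (fun hk => hiS (gen2_FreeProj_mem_subS.1 hk))
    · intro i hiS
      rcases eq_or_ne i j with hij | hij
      · rw [hij, gen2_FreeProj_insert_same, gen2_FreeProj_insert_same]
        exact ⟨le_rfl, le_rfl⟩
      · obtain ⟨k, rfl⟩ := Fin.exists_succAbove_eq hij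
        rw [gen2_FreeProj_insert_succAbove, gen2_FreeProj_insert_succAbove]
        exact h k (gen2_FreeProj_mem_subS.2 hiS)
  · obtain ⟨r, hr, hbox⟩ := hC.box
    refine ⟨r, hr, fun g hg hg0 => ?_⟩
    show (j.insertNth (0 : ℝ) g : Fin (m+1) → ℝ) ∈ C
    refine hbox _ ?_ ?_
    · intro i
      rcases eq_or_ne i j with hij | hij
      · rw [hij, gen2_FreeProj_insert_same, abs_zero]
        exact hr.le
      · obtain ⟨k, rfl⟩ := Fin.exists_succAbove_eq hij
        rw [gen2_FreeProj_insert_succAbove]
        exact hg k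
    · intro i hiS
      rcases eq_or_ne i j with hij | hij
      · rw [hij, gen2_FreeProj_insert_same]
      · obtain ⟨k, rfl⟩ := Fin.exists_succAbove_eq hij
        rw [gen2_FreeProj_insert_succAbove]
        exact hg0 k (gen2_FreeProj_mem_subS.2 hiS)

/-- The two sided comparison: for points `u`, `v` of the corner on the two sides of the
hyperplane `x j = 0`, the lower bound coming from `u` is at most the upper bound coming from
`v`. -/
private theorem gen2_FreeProj_cross (hC : GCorner S C) (j : Fin (m+1)) (g : Fin m → ℝ)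
    (hg : g ∈ gdual (subS S j) (gfacet C j)) (u v : Fin (m+1) → ℝ) (hu : u ∈ C) (hv : v ∈ C)
    (hu0 : u j < 0) (hv0 : 0 < v j) :
    0 ≤ v j * (1 - ∑ k, u (j.succAbove k) * g k)
      + (-(u j)) * (1 - ∑ k, v (j.succAbove k) * g k) := by
  have hD : 0 < v j - u j := by linarith
  set a : ℝ := v j / (v j - u j) with ha
  set b : ℝ := -(u j) / (v j - u j) with hb
  have ha0 : 0 ≤ a := div_nonneg hv0.le hD.le
  have hb0 : 0 ≤ b := div_nonneg (by linarith) hD.le
  have hab : a + b = 1 := by
    rw [ha, hb, ← add_div]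
    exact div_eq_one_iff_eq (ne_of_gt hD) |>.mpr (by ring)
  have hw : a • u + b • v ∈ C := hC.convex hu hv ha0 hb0 hab
  have hw0 : (a • u + b • v) j = 0 := by
    simp only [Pi.add_apply, Pi.smul_apply, smul_eq_mul]
    rw [ha, hb]
    field_simp
    ring
  have hmem : (fun k => (a • u + b • v) (j.succAbove k)) ∈ gfacet C j := by
    show (j.insertNth (0 : ℝ) (fun k => (a • u + b • v) (j.succAbove k))
      : Fin (m+1) → ℝ) ∈ C
    rw [gen2_FreeProj_insert_tail j _ hw0]
    exact hw
  have hle := hg.2 _ hmem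
  have hlin : ∑ k, (a • u + b • v) (j.succAbove k) * g k
      = a * ∑ k, u (j.succAbove k) * g k + b * ∑ k, v (j.succAbove k) * g k := by
    rw [Finset.mul_sum, Finset.mul_sum, ← Finset.sum_add_distrib]
    refine Finset.sum_congr rfl (fun k _ => ?_)
    simp only [Pi.add_apply, Pi.smul_apply, smul_eq_mul]
    ring
  rw [hlin] at hle
  have h1 : 0 ≤ a * (1 - ∑ k, u (j.succAbove k) * g k)
      + b * (1 - ∑ k, v (j.succAbove k) * g k) := by
    nlinarith
  have h2 : v j * (1 - ∑ k, u (j.succAbove k) * g k)
      + (-(u j)) * (1 - ∑ k, v (j.succAbove k) * g k)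
      = (v j - u j) * (a * (1 - ∑ k, u (j.succAbove k) * g k)
        + b * (1 - ∑ k, v (j.succAbove k) * g k)) := by
    rw [ha, hb]
    field_simp
  rw [h2]
  exact mul_nonneg hD.le h1

/-- The projection of the dual corner along a free coordinate `j` is the dual corner of the
section `x j = 0`. -/
theorem proj_gdual_gen (hC : GCorner S C) (j : Fin (m+1)) (hj : j ∉ S) :
    {g : Fin m → ℝ | ∃ t : ℝ, j.insertNth t g ∈ gdual S C} =
      gdual (subS S j) (gfacet C j) := by
  ext g
  constructor
  · rintro ⟨t, ht⟩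
    refine ⟨fun k hk => ?_, fun h hh => ?_⟩
    · have h1 := ht.1 (j.succAbove k) (gen2_FreeProj_mem_subS.1 hk)
      rwa [gen2_FreeProj_insert_succAbove] at h1
    · have hh' : (j.insertNth (0 : ℝ) h : Fin (m+1) → ℝ) ∈ C := hh
      have h1 := ht.2 _ hh'
      rw [gen2_FreeProj_sum] at h1
      simp only [gen2_FreeProj_insert_same, gen2_FreeProj_insert_succAbove, zero_mul,
        zero_add] at h1
      exact h1
  · intro hg
    obtain ⟨r, hr, hbox⟩ := hC.box
    -- the two box points on the axis `j`
    have hzero : ∀ (s : ℝ) (i : Fin (m+1)), i ∈ S →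
        0 ≤ Function.update (0 : Fin (m+1) → ℝ) j s i := by
      intro s i hi
      have hij : i ≠ j := fun h => hj (h ▸ hi)
      rw [Function.update_of_ne hij, Pi.zero_apply]
    have hp : Function.update (0 : Fin (m+1) → ℝ) j r ∈ C := by
      refine hbox _ (fun i => ?_) (hzero r)
      rcases eq_or_ne i j with hij | hij
      · rw [hij, Function.update_self, abs_of_pos hr]
      · rw [Function.update_of_ne hij, Pi.zero_apply, abs_zero]
        exact hr.le
    have hq : Function.update (0 : Fin (m+1) → ℝ) j (-r) ∈ C := by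
      refine hbox _ (fun i => ?_) (hzero (-r))
      rcases eq_or_ne i j with hij | hij
      · rw [hij, Function.update_self, abs_neg, abs_of_pos hr]
      · rw [Function.update_of_ne hij, Pi.zero_apply, abs_zero]
        exact hr.le
    have hp0 : (Function.update (0 : Fin (m+1) → ℝ) j r) j = r := Function.update_self _ _ _
    have hq0 : (Function.update (0 : Fin (m+1) → ℝ) j (-r)) j = -r :=
      Function.update_self _ _ _
    -- the set of lower bounds for `t`
    set A : Set ℝ := (fun u : Fin (m+1) → ℝ =>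
        -(1 - ∑ k, u (j.succAbove k) * g k) / (-(u j))) '' {u | u ∈ C ∧ u j < 0}
      with hA
    have hAne : A.Nonempty :=
      ⟨_, ⟨_, ⟨hq, by rw [hq0]; linarith⟩, rfl⟩⟩
    have hAle : ∀ v : Fin (m+1) → ℝ, v ∈ C → 0 < v j → ∀ s ∈ A,
        s ≤ (1 - ∑ k, v (j.succAbove k) * g k) / v j := by
      rintro v hv hv0 s ⟨u, ⟨hu, hu0⟩, rfl⟩
      have hcross := gen2_FreeProj_cross hC j g hg u v hu hv hu0 hv0
      have hu0' : 0 < -(u j) := by linarith
      rw [div_le_div_iff₀ hu0' hv0]
      linarith
    have hAbdd : BddAbove A :=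
      ⟨_, fun s hs => hAle _ hp (by rw [hp0]; exact hr) s hs⟩
    refine ⟨sSup A, fun i hi => ?_, fun x hx => ?_⟩
    · have hij : i ≠ j := fun h => hj (h ▸ hi)
      obtain ⟨k, rfl⟩ := Fin.exists_succAbove_eq hij
      rw [gen2_FreeProj_insert_succAbove]
      exact hg.1 k (gen2_FreeProj_mem_subS.2 hi)
    · rw [gen2_FreeProj_sum]
      rcases lt_trichotomy (x j) 0 with hx0 | hx0 | hx0
      · have hmemA : -(1 - ∑ k, x (j.succAbove k) * g k) / (-(x j)) ∈ A :=
          ⟨x, ⟨hx, hx0⟩, rfl⟩
        have h1 := le_csSup hAbdd hmemA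
        have hx0' : 0 < -(x j) := by linarith
        rw [div_le_iff₀ hx0'] at h1
        linarith
      · have hmem : (fun k => x (j.succAbove k)) ∈ gfacet C j := by
          show (j.insertNth (0 : ℝ) (fun k => x (j.succAbove k)) : Fin (m+1) → ℝ) ∈ C
          rw [gen2_FreeProj_insert_tail j _ hx0]
          exact hx
        have h1 := hg.2 _ hmem
        rw [hx0, zero_mul, zero_add]
        exact h1
      · have h1 : sSup A ≤ (1 - ∑ k, x (j.succAbove k) * g k) / x j :=
          csSup_le hAne (hAle x hx hx0)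
        rw [le_div_iff₀ hx0] at h1
        linarith

end Vale.Agent.Lib.P248.Gen
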