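import Vale.Agent.Lib.P248.Gen.Dual
import Vale.Agent.Lib.P248.Gen2.FreeCone
import Vale.Agent.Lib.P248.Gen2.FreeProj
import Vale.Agent.Lib.P248.Gen2.FreeFiber

open MeasureTheory Set

namespace Vale.Agent.Lib.P248.Gen

/-- A corner is compact. -/
private theorem gen2_StepF_isCompact {m : ℕ} {S : Finset (Fin m)} {C : Set (Fin m → ℝ)}
    (hC : GCorner S C) : IsCompact C := by
  obtain ⟨R, hR⟩ := hC.bdd
  refine IsCompact.of_isClosed_subset
    (isCompact_Icc (a := fun _ : Fin m => -R) (b := fun _ : Fin m => R)) hC.closed ?_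
  intro x hx
  exact ⟨fun i => (abs_le.mp (hR x hx i)).1, fun i => (abs_le.mp (hR x hx i)).2⟩

/-- The value at `j` of a point of the axis of the coordinate `j`. -/
private theorem gen2_StepF_axis_same {m : ℕ} (j : Fin (m+1)) (t : ℝ) :
    (j.insertNth t (0 : Fin m → ℝ) : Fin (m+1) → ℝ) j = t := by
  simp

/-- The other coordinates of a point of the axis of the coordinate `j` vanish. -/
private theorem gen2_StepF_axis_ne {m : ℕ} (j : Fin (m+1)) (t : ℝ) (i : Fin (m+1))
    (hi : i ≠ j) : (j.insertNth t (0 : Fin m → ℝ) : Fin (m+1) → ℝ) i = 0 := by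
  obtain ⟨k, rfl⟩ := Fin.exists_succAbove_eq hi
  simp

/-- The pairing with a point of the axis of the coordinate `j`. -/
private theorem gen2_StepF_axis_sum {m : ℕ} (j : Fin (m+1)) (x : Fin (m+1) → ℝ) (t : ℝ) :
    ∑ i, x i * (j.insertNth t (0 : Fin m → ℝ) : Fin (m+1) → ℝ) i = x j * t := by
  rw [Fin.sum_univ_succAbove _ j]
  simp

/-- The coordinates of a point of the axis of the coordinate `j`. -/
private theorem gen2_StepF_axis_abs {m : ℕ} (j : Fin (m+1)) (t : ℝ) (i : Fin (m+1)) :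
    |(j.insertNth t (0 : Fin m → ℝ) : Fin (m+1) → ℝ) i| ≤ |t| := by
  by_cases hi : i = j
  · subst hi
    rw [gen2_StepF_axis_same]
  · rw [gen2_StepF_axis_ne j t i hi, abs_zero]
    exact abs_nonneg t

/-- `(A + B) (1 / A + 1 / B) ≥ 4`, written with `A = u > 0` and `B = -v > 0`. -/
private theorem gen2_StepF_four_le {u v : ℝ} (hu : 0 < u) (hv : v < 0) :
    4 ≤ (u - v) * (1 / u - 1 / v) := by
  have hv' : 0 < -v := by linarith
  have hune : u ≠ 0 := hu.ne'
  have hvne : v ≠ 0 := hv.ne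
  have e : (u - v) * (1 / u - 1 / v) - 4 = (u + v) ^ 2 / (u * (-v)) := by
    field_simp
    ring
  have hnn : 0 ≤ (u + v) ^ 2 / (u * (-v)) := div_nonneg (sq_nonneg _) (mul_pos hu hv').le
  linarith

/-- The step removing a free coordinate `j`, with a general constant `κ` for the section. -/
theorem gcorner_stepF_gen {m : ℕ} (κ : ℝ) (S : Finset (Fin (m+1)))
    (C : Set (Fin (m+1) → ℝ)) (hC : GCorner S C) (j : Fin (m+1)) (hj : j ∉ S)
    (ih : κ ≤ vol (gfacet C j) * vol (gdual (subS S j) (gfacet C j))) :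
    4 * κ / ((m:ℝ) + 1) ^ 2 ≤ vol C * vol (gdual S C) := by
  have hCc : IsCompact C := gen2_StepF_isCompact hC
  obtain ⟨r, hr, hbox⟩ := hC.box
  have hSne : ∀ i ∈ S, i ≠ j := fun i hi h => hj (h ▸ hi)
  have hPp : j.insertNth r (0 : Fin m → ℝ) ∈ C := by
    refine hbox _ (fun i => ?_) (fun i hi => ?_)
    · have h := gen2_StepF_axis_abs (m := m) j r i
      rwa [abs_of_pos hr] at h
    · rw [gen2_StepF_axis_ne j r i (hSne i hi)]
  have hPm : j.insertNth (-r) (0 : Fin m → ℝ) ∈ C := by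
    refine hbox _ (fun i => ?_) (fun i hi => ?_)
    · have h := gen2_StepF_axis_abs (m := m) j (-r) i
      rwa [abs_neg, abs_of_pos hr] at h
    · rw [gen2_StepF_axis_ne j (-r) i (hSne i hi)]
  have hne : C.Nonempty := ⟨_, hPp⟩
  have hcont : Continuous fun x : Fin (m+1) → ℝ => x j := continuous_apply j
  obtain ⟨p, hp, hpmax⟩ := hCc.exists_isMaxOn hne hcont.continuousOn
  obtain ⟨q, hq, hqmin⟩ := hCc.exists_isMinOn hne hcont.continuousOn
  have hpmax' : ∀ x ∈ C, x j ≤ p j := fun x hx => isMaxOn_iff.mp hpmax x hx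
  have hqmin' : ∀ x ∈ C, q j ≤ x j := fun x hx => isMinOn_iff.mp hqmin x hx
  have hp0 : 0 < p j := by
    have h := hpmax' _ hPp
    rw [gen2_StepF_axis_same] at h
    linarith
  have hq0 : q j < 0 := by
    have h := hqmin' _ hPm
    rw [gen2_StepF_axis_same] at h
    linarith
  have hD : GCorner S (gdual S C) := gcorner_dual hC
  have hDc : IsCompact (gdual S C) := gen2_StepF_isCompact hD
  have h2 : j.insertNth (1 / p j) (0 : Fin m → ℝ) ∈ gdual S C := by
    refine ⟨fun i hi => ?_, fun x hx => ?_⟩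
    · rw [gen2_StepF_axis_ne j (1 / p j) i (hSne i hi)]
    · rw [gen2_StepF_axis_sum, mul_one_div, div_le_one hp0]
      exact hpmax' x hx
  have h1 : j.insertNth (1 / q j) (0 : Fin m → ℝ) ∈ gdual S C := by
    refine ⟨fun i hi => ?_, fun x hx => ?_⟩
    · rw [gen2_StepF_axis_ne j (1 / q j) i (hSne i hi)]
    · rw [gen2_StepF_axis_sum, mul_one_div, div_le_one_of_neg hq0]
      exact hqmin' x hx
  have e1 : 1 / q j < 0 := one_div_neg.mpr hq0
  have e2 : 0 < 1 / p j := one_div_pos.mpr hp0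
  have ht : 1 / q j ≤ 1 / p j := by linarith
  have hfib := vol_ge_fiber_gen hDc hD.convex j ht h1 h2
  rw [proj_gdual_gen hC j hj] at hfib
  have hcone := vol_ge_dcone_gen hC j hp hq hp0 hq0
  have hab := gen2_StepF_four_le hp0 hq0
  have hV1 : 0 ≤ vol (gfacet C j) := ENNReal.toReal_nonneg
  have hV2 : 0 ≤ vol (gdual (subS S j) (gfacet C j)) := ENNReal.toReal_nonneg
  have hX : 0 ≤ vol C := ENNReal.toReal_nonneg
  have hb : 0 < 1 / p j - 1 / q j := by linarith
  have hm1 : (0:ℝ) ≤ (m:ℝ) + 1 := by positivity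
  have hprod : (p j - q j) * vol (gfacet C j) *
      ((1 / p j - 1 / q j) * vol (gdual (subS S j) (gfacet C j))) ≤
      ((m:ℝ) + 1) * vol C * (((m:ℝ) + 1) * vol (gdual S C)) :=
    mul_le_mul hcone hfib (mul_nonneg hb.le hV2) (mul_nonneg hm1 hX)
  have h4 : 4 * (vol (gfacet C j) * vol (gdual (subS S j) (gfacet C j))) ≤
      ((m:ℝ) + 1) ^ 2 * (vol C * vol (gdual S C)) := by
    calc 4 * (vol (gfacet C j) * vol (gdual (subS S j) (gfacet C j)))
        ≤ (p j - q j) * (1 / p j - 1 / q j) *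
            (vol (gfacet C j) * vol (gdual (subS S j) (gfacet C j))) :=
          mul_le_mul_of_nonneg_right hab (mul_nonneg hV1 hV2)
      _ = (p j - q j) * vol (gfacet C j) *
            ((1 / p j - 1 / q j) * vol (gdual (subS S j) (gfacet C j))) := by ring
      _ ≤ ((m:ℝ) + 1) * vol C * (((m:ℝ) + 1) * vol (gdual S C)) := hprod
      _ = ((m:ℝ) + 1) ^ 2 * (vol C * vol (gdual S C)) := by ring
  have hpos : (0:ℝ) < ((m:ℝ) + 1) ^ 2 := by positivity
  rw [div_le_iff₀ hpos]
  calc 4 * κ ≤ 4 * (vol (gfacet C j) * vol (gdual (subS S j) (gfacet C j))) :=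
        mul_le_mul_of_nonneg_left ih (by norm_num)
    _ ≤ ((m:ℝ) + 1) ^ 2 * (vol C * vol (gdual S C)) := h4
    _ = vol C * vol (gdual S C) * ((m:ℝ) + 1) ^ 2 := by ring

end Vale.Agent.Lib.P248.Gen
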