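import Vale.Agent.Lib.P248.Gen.Cone

open MeasureTheory Set

namespace Vale.Agent.Lib.P248.Gen

/-- The step removing a symmetric coordinate, with a general constant `κ` for the facets. -/
theorem gcorner_stepS_gen {m : ℕ} (κ : ℝ) (S : Finset (Fin (m+1))) (C : Set (Fin (m+1) → ℝ))
    (hC : GCorner S C)
    (ih : ∀ i ∈ S, κ ≤ vol (gfacet C i) * vol (gdual (subS S i) (gfacet C i))) :
    (S.card : ℝ) * κ / ((m:ℝ) + 1) ^ 2 ≤ vol C * vol (gdual S C) := by
  have hD : GCorner S (gdual S C) := gcorner_dual hC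
  have hV : 0 < vol C := gcorner_vol_pos hC
  have hN : (0:ℝ) < (m:ℝ) + 1 := by positivity
  have hNV : 0 < ((m:ℝ) + 1) * vol C := mul_pos hN hV
  have hvol0 : ∀ K : Set (Fin m → ℝ), 0 ≤ vol K := fun K => ENNReal.toReal_nonneg
  obtain ⟨w, hw⟩ : ∃ w : Fin (m+1) → ℝ,
      w = fun i => if i ∈ S then vol (gfacet C i) / (((m:ℝ) + 1) * vol C) else 0 := ⟨_, rfl⟩
  have hwS : ∀ i ∈ S, w i = vol (gfacet C i) / (((m:ℝ) + 1) * vol C) := by
    intro i hi
    rw [hw]
    simp only [if_pos hi]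
  have hwD : w ∈ gdual S C := by
    refine ⟨fun i hi => ?_, fun x hx => ?_⟩
    · rw [hwS i hi]
      exact div_nonneg (hvol0 _) hNV.le
    · have hterm : ∀ i : Fin (m+1), x i * w i =
          (if i ∈ S then x i * vol (gfacet C i) else 0) / (((m:ℝ) + 1) * vol C) := by
        intro i
        by_cases hi : i ∈ S
        · rw [hwS i hi]
          simp only [if_pos hi]
          rw [mul_div_assoc]
        · rw [hw]
          simp only [if_neg hi, mul_zero, zero_div]
      rw [Finset.sum_congr rfl (fun i _ => hterm i), ← Finset.sum_div, div_le_one hNV,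
        Finset.sum_ite_mem, Finset.univ_inter]
      exact gcone_ineq hC hx
  have hcone := gcone_ineq hD hwD
  have hterm : ∀ i ∈ S, κ / (((m:ℝ) + 1) * vol C) ≤ w i * vol (gfacet (gdual S C) i) := by
    intro i hi
    have h1 := ih i hi
    rw [← gfacet_gdual hC i hi] at h1
    rw [hwS i hi, div_mul_eq_mul_div]
    exact div_le_div_of_nonneg_right h1 hNV.le
  have hsum : ∑ _i ∈ S, κ / (((m:ℝ) + 1) * vol C) =
      (S.card : ℝ) * (κ / (((m:ℝ) + 1) * vol C)) := by
    rw [Finset.sum_const, nsmul_eq_mul]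
  have hmain : (S.card : ℝ) * (κ / (((m:ℝ) + 1) * vol C)) ≤
      ((m:ℝ) + 1) * vol (gdual S C) := by
    rw [← hsum]
    exact le_trans (Finset.sum_le_sum hterm) hcone
  rw [div_le_iff₀ (by positivity)]
  have h2 : (S.card : ℝ) * (κ / (((m:ℝ) + 1) * vol C)) =
      (S.card : ℝ) * κ / (((m:ℝ) + 1) * vol C) := by
    ring
  rw [h2, div_le_iff₀ hNV] at hmain
  calc (S.card : ℝ) * κ ≤ ((m:ℝ) + 1) * vol (gdual S C) * (((m:ℝ) + 1) * vol C) := hmain
    _ = vol C * vol (gdual S C) * ((m:ℝ) + 1) ^ 2 := by ring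

end Vale.Agent.Lib.P248.Gen
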