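import Vale.Agent.Lib.P248.Gen.Facet
import Vale.Agent.Lib.P248.Gen2.StepS
import Vale.Agent.Lib.P248.Gen2.StepF
import Vale.Agent.Lib.P248.Gen2.Base21
import Vale.Agent.Lib.P248.Gen2.Arith

open MeasureTheory Set

namespace Vale.Agent.Lib.P248.Gen

/-- **Improved product inequality for corners with at least one symmetric and at least one free
coordinate**: `|C| |C^d| ≥ (3/2) 4^(m-s) s! / (m!)^2`. -/
theorem gcorner_product2 : ∀ (m : ℕ) (S : Finset (Fin m)) (C : Set (Fin m → ℝ)), GCorner S C →
    1 ≤ S.card → S.card < m →
    3 / 2 * (4:ℝ) ^ m * (S.card).factorial / (4 ^ S.card * (m.factorial : ℝ) ^ 2) ≤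
      vol C * vol (gdual S C) := by
  intro m
  induction m with
  | zero =>
    intro S C _ _ h2
    exact absurd h2 (Nat.not_lt_zero _)
  | succ k ih =>
    intro S C hC h1 h2
    rcases Nat.lt_or_ge k 2 with hk | hk
    · -- dimension at most two: only dimension two with one symmetric coordinate is possible
      have hk1 : k = 1 := by omega
      subst hk1
      have hS : S.card = 1 := by omega
      have h := gcorner_base21 S hS C hC
      rw [hS]
      norm_num
      linarith
    · -- dimension `k + 1 ≥ 3`
      rcases Nat.lt_or_ge (S.card) 2 with hs | hs
      · -- exactly one symmetric coordinate: remove a free coordinate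
        have hS : S.card = 1 := by omega
        have hex : ∃ j : Fin (k+1), j ∉ S := by
          by_contra hcon
          push Not at hcon
          have huniv : S = Finset.univ := Finset.eq_univ_iff_forall.mpr hcon
          rw [huniv, Finset.card_univ, Fintype.card_fin] at hS
          omega
        obtain ⟨j, hj⟩ := hex
        have hcard : (subS S j).card = 1 := by
          rw [card_subS_of_notMem j hj, hS]
        have hfac := gcorner_facet_free_gen hC j hj
        have hih := ih (subS S j) (gfacet C j) hfac (by omega) (by omega)
        rw [hcard] at hih
        have h := gcorner_stepF_gen _ S C hC j hj hih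
        rw [arith_stepF k] at h
        rw [hS]
        exact h
      · -- at least two symmetric coordinates: remove a symmetric coordinate
        obtain ⟨t, ht⟩ : ∃ t : ℕ, S.card = t + 1 := ⟨S.card - 1, by omega⟩
        have hfacet : ∀ i ∈ S,
            3 / 2 * (4:ℝ) ^ k * (t.factorial : ℝ) / (4 ^ t * (k.factorial : ℝ) ^ 2) ≤
              vol (gfacet C i) * vol (gdual (subS S i) (gfacet C i)) := by
          intro i hi
          have hcard : (subS S i).card = t := by
            have := card_subS i hi
            omega
          have hfac := gcorner_facet hC i hi
          have hih := ih (subS S i) (gfacet C i) hfac (by omega) (by omega)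
          rw [hcard] at hih
          exact hih
        have h := gcorner_stepS_gen _ S C hC hfacet
        rw [ht] at h
        rw [arith_stepS k t] at h
        rw [ht]
        exact h

end Vale.Agent.Lib.P248.Gen
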