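import Vale.Agent.Lib.P248.Polar
import Vale.Agent.Lib.P248.Gen.Orthant
import Vale.Agent.Lib.P248.Gen.Polar
import Vale.Agent.Lib.P248.Gen.PolarCorner
import Vale.Agent.Lib.P248.Gen2.Product

open MeasureTheory Set

namespace Vale.Agent.Lib.P248.Gen

/-- The improved bound for the volume product with respect to a point of the fixed subspace of
the symmetries, when there is at least one symmetric and at least one free coordinate. -/
theorem gaxis_bound2 {m : ℕ} (K : Set (Fin m → ℝ)) (hK : IsCompact K) (hc : Convex ℝ K)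
    (S : Finset (Fin m))
    (hflip : ∀ i ∈ S, ∀ x ∈ K, Function.update x i (-(x i)) ∈ K)
    (z : Fin m → ℝ) (hz0 : ∀ i ∈ S, z i = 0) (hz : z ∈ interior K)
    (h1 : 1 ≤ S.card) (h2 : S.card < m) :
    3 / 2 * (4:ℝ) ^ m * (S.card).factorial / (m.factorial : ℝ) ^ 2 ≤
      vol K * vol (polarAt K z) := by
  have hC : GCorner S (gcornerOf S K z) := gcorner_gcornerOf hK hc S hflip hz0 hz
  have hprod := gcorner_product2 m S (gcornerOf S K z) hC h1 h2
  have hle := vol_gcornerOf_le hK S hflip hz0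
  have h3 := gorthant_vol_le S (M := polarAt K z) (isClosed_polarAt K z).measurableSet
    (volume_polarAt_ne_top hz) (gpolarAt_flip S hflip hz0)
  rw [gpolarAt_pos_eq S hflip hz0] at h3
  have hv1 : 0 ≤ vol (gcornerOf S K z) := ENNReal.toReal_nonneg
  have hv2 : 0 ≤ vol (gdual S (gcornerOf S K z)) := ENNReal.toReal_nonneg
  have hp : (0:ℝ) < 2 ^ S.card := by positivity
  have h4 : (4:ℝ) ^ S.card = (2:ℝ) ^ S.card * (2:ℝ) ^ S.card := by
    rw [← mul_pow]
    norm_num
  have hm : (0:ℝ) < (m.factorial : ℝ) ^ 2 := by positivity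
  have e : 3 / 2 * (4:ℝ) ^ m * (S.card).factorial / (m.factorial : ℝ) ^ 2 =
      (2:ℝ) ^ S.card * (2:ℝ) ^ S.card *
        (3 / 2 * (4:ℝ) ^ m * (S.card).factorial / (4 ^ S.card * (m.factorial : ℝ) ^ 2)) := by
    rw [h4]
    field_simp
  rw [e]
  calc (2:ℝ) ^ S.card * (2:ℝ) ^ S.card *
        (3 / 2 * (4:ℝ) ^ m * (S.card).factorial / (4 ^ S.card * (m.factorial : ℝ) ^ 2))
      ≤ (2:ℝ) ^ S.card * (2:ℝ) ^ S.card *
          (vol (gcornerOf S K z) * vol (gdual S (gcornerOf S K z))) :=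
        mul_le_mul_of_nonneg_left hprod (mul_nonneg hp.le hp.le)
    _ = ((2:ℝ) ^ S.card * vol (gcornerOf S K z)) *
          ((2:ℝ) ^ S.card * vol (gdual S (gcornerOf S K z))) := by
        ring
    _ ≤ vol K * vol (polarAt K z) :=
        mul_le_mul hle h3 (mul_nonneg hp.le hv2) (le_trans (mul_nonneg hp.le hv1) hle)

end Vale.Agent.Lib.P248.Gen
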