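import Vale.Agent.Lib.P248.Gen.Final
import Vale.Agent.Lib.P248.Gen2.Axis

open MeasureTheory Set

namespace Vale.Agent.Lib.P248.Gen

/-- The improved bound for every interior point. -/
theorem symCoords_bound2 {m : ℕ} (K : Set (Fin m → ℝ)) (hK : IsCompact K) (hc : Convex ℝ K)
    (S : Finset (Fin m))
    (hflip : ∀ i ∈ S, ∀ x ∈ K, Function.update x i (-(x i)) ∈ K)
    (z : Fin m → ℝ) (hz : z ∈ interior K) (h1 : 1 ≤ S.card) (h2 : S.card < m) :
    3 / 2 * (4:ℝ) ^ m * (S.card).factorial / (m.factorial : ℝ) ^ 2 ≤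
      vol K * vol (polarAt K z) := by
  obtain ⟨z', hz0, hz', hle⟩ := gpolar_vol_axis_le hK hc S hflip hz
  have hb := gaxis_bound2 K hK hc S hflip z' hz0 hz' h1 h2
  have hv : 0 ≤ vol K := ENNReal.toReal_nonneg
  exact le_trans hb (mul_le_mul_of_nonneg_left hle hv)

/-- The two bounds together with their consequences for the simplex comparison. -/
theorem symCoords_final2 {m : ℕ} (K : Set (Fin m → ℝ)) (hK : IsCompact K) (hc : Convex ℝ K)
    (S : Finset (Fin m))
    (hflip : ∀ i ∈ S, ∀ x ∈ K, Function.update x i (-(x i)) ∈ K)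
    (z : Fin m → ℝ) (hz : z ∈ interior K) :
    (4:ℝ) ^ m * (S.card).factorial / (m.factorial : ℝ) ^ 2 ≤ vol K * vol (polarAt K z) ∧
      (1 ≤ S.card → S.card < m →
        3 / 2 * (4:ℝ) ^ m * (S.card).factorial / (m.factorial : ℝ) ^ 2 ≤
          vol K * vol (polarAt K z)) ∧
      (((m:ℝ) + 1) ^ (m+1) < (4:ℝ) ^ m * (S.card).factorial →
        ((m:ℝ) + 1) ^ (m+1) / (m.factorial : ℝ) ^ 2 < vol K * vol (polarAt K z)) ∧
      (1 ≤ S.card → S.card < m →
        ((m:ℝ) + 1) ^ (m+1) < 3 / 2 * (4:ℝ) ^ m * (S.card).factorial →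
        ((m:ℝ) + 1) ^ (m+1) / (m.factorial : ℝ) ^ 2 < vol K * vol (polarAt K z)) ∧
      (7 ≤ m → m ≤ S.card + 1 →
        ((m:ℝ) + 1) ^ (m+1) / (m.factorial : ℝ) ^ 2 < vol K * vol (polarAt K z)) ∧
      (18 ≤ m → m ≤ S.card + 2 →
        ((m:ℝ) + 1) ^ (m+1) / (m.factorial : ℝ) ^ 2 < vol K * vol (polarAt K z)) := by
  obtain ⟨h1, h2, -, -⟩ := symCoords_final K hK hc S hflip z hz
  have hpos : (0:ℝ) < (m.factorial : ℝ) ^ 2 := by positivity
  have h4 : (0:ℝ) < (4:ℝ) ^ m := by positivity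
  have hcard : S.card ≤ m := by
    have := Finset.card_le_univ S
    simpa using this
  have h3 : 1 ≤ S.card → S.card < m →
      ((m:ℝ) + 1) ^ (m+1) < 3 / 2 * (4:ℝ) ^ m * (S.card).factorial →
      ((m:ℝ) + 1) ^ (m+1) / (m.factorial : ℝ) ^ 2 < vol K * vol (polarAt K z) := by
    intro ha hb hlt
    have hbd := symCoords_bound2 K hK hc S hflip z hz ha hb
    exact lt_of_lt_of_le (div_lt_div_of_pos_right hlt hpos) hbd
  -- a uniform way to conclude from a bound for the factorial of some d ≤ s with d + 1 ≤ m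
  have key : ∀ d : ℕ, d ≤ S.card → d + 1 ≤ m → 1 ≤ d →
      ((m:ℝ) + 1) ^ (m+1) < 3 / 2 * (4:ℝ) ^ m * (d.factorial : ℝ) →
      ((m:ℝ) + 1) ^ (m+1) / (m.factorial : ℝ) ^ 2 < vol K * vol (polarAt K z) := by
    intro d hd hdm hd1 hlt
    rcases Nat.lt_or_ge S.card m with hs | hs
    · -- at least one free coordinate
      apply h3 (by omega) hs
      have hfac : (d.factorial : ℝ) ≤ ((S.card).factorial : ℝ) := by
        exact_mod_cast Nat.factorial_le hd
      calc ((m:ℝ) + 1) ^ (m+1) < 3 / 2 * (4:ℝ) ^ m * (d.factorial : ℝ) := hlt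
        _ ≤ 3 / 2 * (4:ℝ) ^ m * ((S.card).factorial : ℝ) := by
            apply mul_le_mul_of_nonneg_left hfac
            positivity
    · -- all coordinates symmetric
      apply h2
      have hsm : S.card = m := le_antisymm hcard hs
      rw [hsm]
      -- (3/2) d! ≤ m! because d + 1 ≤ m and m ≥ 2
      have hfac : (d + 1).factorial ≤ m.factorial := Nat.factorial_le hdm
      have hfac2 : 2 * d.factorial ≤ (d + 1).factorial := by
        rw [Nat.factorial_succ]
        exact Nat.mul_le_mul_right _ (by omega)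
      have hfacR : (2:ℝ) * (d.factorial : ℝ) ≤ (m.factorial : ℝ) := by
        exact_mod_cast le_trans hfac2 hfac
      have hdpos : (0:ℝ) ≤ (d.factorial : ℝ) := by positivity
      calc ((m:ℝ) + 1) ^ (m+1) < 3 / 2 * (4:ℝ) ^ m * (d.factorial : ℝ) := hlt
        _ = (4:ℝ) ^ m * (3 / 2 * (d.factorial : ℝ)) := by ring
        _ ≤ (4:ℝ) ^ m * (m.factorial : ℝ) := by
            apply mul_le_mul_of_nonneg_left _ h4.le
            linarith
  refine ⟨h1, fun ha hb => symCoords_bound2 K hK hc S hflip z hz ha hb, h2, h3, ?_, ?_⟩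
  · intro hm hs
    exact key (m - 1) (by omega) (by omega) (by omega) (num_gap_one7 m hm)
  · intro hm hs
    exact key (m - 2) (by omega) (by omega) (by omega) (num_gap_two18 m hm)

end Vale.Agent.Lib.P248.Gen
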